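import Vale.Agent.P218GC.Fr

/-! The geometric operator on the ends; orientations. -/

open Set Filter Topology Complex
open scoped ContDiff Matrix

noncomputable section

set_option linter.unusedSectionVars false

namespace Vale.Agent.P218GC

open Vale.Agent.P218VA Vale.Agent.P218CO Vale.Agent.P218XI Vale.Agent.P218OP
open Vale.Agent.P218MP (Per)
open Vale.Agent.P272.K.LIN (RSm)
open Vale.Agent.P218GA (E3 Model cx mat mat_orth cx_isometry cx_dot far ev_gt ev_far pd_cx)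
open Vale.Agent.P218CN (Ej lam cOp_E)
open Vale.Agent.P218EN (xf ef pE)

lemma cay_zero : cay 0 0 = 1 := by
  ext i j
  fin_cases i <;> fin_cases j <;> simp [cay, skw]

lemma cay_orth {b1 b2 : ℂ} (h : 1 + (b1 ^ 2 + b2 ^ 2) / 4 ≠ 0) : (cay b1 b2)ᵀ * cay b1 b2 = 1 := by
  have h1 := inv_mul_cancel₀ h
  unfold cay
  generalize (1 + (b1 ^ 2 + b2 ^ 2) / 4)⁻¹ = d at h1
  ext i j
  fin_cases i <;> fin_cases j <;>
    simp [skw, Matrix.mul_apply, Fin.sum_univ_three, Matrix.one_apply]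
  · linear_combination d * b1 ^ 2 * h1
  · linear_combination d * b1 * b2 * h1
  · ring
  · linear_combination d * b1 * b2 * h1
  · linear_combination d * b2 ^ 2 * h1
  · ring
  · ring
  · ring
  · linear_combination d * (b1 ^ 2 + b2 ^ 2) * h1

lemma cay_den_ne {b1 b2 : ℂ} (h1 : ‖b1‖ < 1) (h2 : ‖b2‖ < 1) : 1 + (b1 ^ 2 + b2 ^ 2) / 4 ≠ 0 := by
  intro h
  have h3 : ‖(b1 ^ 2 + b2 ^ 2) / 4‖ = 1 := by rw [eq_neg_of_add_eq_zero_right h]; simp
  have h4 := norm_add_le (b1 ^ 2) (b2 ^ 2)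
  rw [norm_div, Complex.norm_ofNat] at h3
  rw [norm_pow, norm_pow] at h4
  nlinarith [norm_nonneg b1, norm_nonneg b2]

variable {S : Set E3} {w : E3 → ℝ} {δ C : ℝ} {ι κ M : Type} [TopologicalSpace M]
  [ChartedSpace E2 M] (m : Model S w δ C ι κ M) (ε : ι ⊕ κ → Bool) [Fintype ι] [Fintype κ]

lemma rotM_orth (j : ι ⊕ κ) {B : ι × Fin 2 → ℂ} (hB : ‖B‖ < 1) :
    (rotM m j B)ᵀ * rotM m j B = 1 := by
  cases j with
  | inl i =>
    have h := cay_orth (cay_den_ne ((norm_le_pi_norm B (i, 0)).trans_lt hB)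
      ((norm_le_pi_norm B (i, 1)).trans_lt hB))
    simp only [rotM, Sum.elim_inl, Matrix.transpose_mul]
    rw [Matrix.mul_assoc, ← Matrix.mul_assoc (mat _)ᵀ, mat_orth, Matrix.one_mul, h]
  | inr k => simp [rotM]

/-- the logarithmic derivative of the scale -/
def sd : ι ⊕ κ → ℝ → ℂ := Sum.elim (fun _ => xf) fun _ _ => 0

/-- the normalising factor of the operator of an end -/
def fac : ι ⊕ κ → ℝ → ℂ := Sum.elim (fun _ w => 4 * ef 0 w) fun _ _ => 1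

/-- the jet of the function which describes an end -/
def ubJ (j : ι ⊕ κ) : ℝ × ℝ → J2 ℂ := pj fun q => (ub m j q : ℂ)

/-- the jet of the angle -/
def tJ (j : ι ⊕ κ) (p : ℝ × ℝ) (k : J2 ℂ) : J2 ℂ :=
  sJ (scl j p.1) (sd j p.1) (ubJ m j p + (sgn (ε j) : ℂ) • k)

/-- the first order jet of the angle -/
def t1 (j : ι ⊕ κ) (p : ℝ × ℝ) (k : T3 ℂ) : T3 ℂ := (tJ m ε j p (k, 0)).1

/-- the first order jet of the angle of the model -/
def t0 (j : ι ⊕ κ) (p : ℝ × ℝ) : T3 ℂ := (sJ (scl j p.1) (sd j p.1) (ubJ m j p)).1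

/-- the factor between the geometric operator and the operator of an end -/
def geoG (j : ι ⊕ κ) (p : ℝ × ℝ) (k : T3 ℂ) : ℂ :=
  scl j p.1 * fac j p.1 * fc (fr m j) p (t1 m ε j p k) / Complex.sqrt (gm (fr m j) p (t0 m j p))

/-- the length element of the ends is positive above the level `a` -/
def PosG (a : ℝ) : Prop := ∀ j (p : ℝ × ℝ), a ≤ p.1 → 0 < ((fr m j).G p.2 (t0 m j p).1).re

lemma t1_zero (j : ι ⊕ κ) (p : ℝ × ℝ) : t1 m ε j p 0 = t0 m j p := by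
  rw [t1, tJ, Prod.mk_zero_zero, smul_zero, add_zero, t0]

lemma t1_eq (j : ι ⊕ κ) (p : ℝ × ℝ) (k : J2 ℂ) : (tJ m ε j p k).1 = t1 m ε j p k.1 := rfl

lemma t0_fst (j : ι ⊕ κ) (p : ℝ × ℝ) : (t0 m j p).1 = tE m ε j p 0 := by
  simp [t0, sJ, tE, ubJ, cj]

section
variable (j : ι ⊕ κ) {p : ℝ × ℝ}

lemma scl_rep {x : ℝ} (hx : 1 ≤ x) : ∃ r : ℝ, 0 < r ∧ r ≤ 1 ∧ scl j x = r := by
  cases j with
  | inl i =>
    have h : 1 ≤ √(8 * x) := Real.one_le_sqrt.2 (by linarith)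
    exact ⟨(√(8 * x))⁻¹, by positivity, inv_le_one_of_one_le₀ h, rfl⟩
  | inr k => exact ⟨1, one_pos, le_rfl, by simp [scl]⟩

lemma fac_rep {x : ℝ} (hx : 0 < x) : ∃ r : ℝ, 0 < r ∧ fac j x = r := by
  cases j with
  | inl i => exact ⟨4 * (8 * x)⁻¹, by positivity, by simp [fac, ef]⟩
  | inr k => exact ⟨1, one_pos, by simp [fac]⟩

lemma star_scl (x : ℝ) : star (scl j x) = scl j x := by cases j <;> simp [scl, kap]

lemma star_sd (x : ℝ) : star (sd j x) = sd j x := by cases j <;> simp [sd, xf]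

lemma cd_scl (h0 : 0 < p.1) : ContDiffAt ℝ ∞ (fun q : ℝ × ℝ => scl j q.1) p := by
  cases j with
  | inl i => exact (contDiffAt_kap h0).comp p contDiffAt_fst
  | inr k => exact contDiffAt_const

lemma cd_sd (h0 : 0 < p.1) : ContDiffAt ℝ ∞ (fun q : ℝ × ℝ => sd j q.1) p := by
  cases j with
  | inl i => exact cd_xf h0
  | inr k => exact contDiffAt_const

lemma cd_fac (h0 : 0 < p.1) : ContDiffAt ℝ ∞ (fun q : ℝ × ℝ => fac j q.1) p := by
  cases j with
  | inl i => exact contDiffAt_const.mul (cd_ef h0)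
  | inr k => exact contDiffAt_const

lemma cd_ub (hp : m.w0 < p.1) : ContDiffAt ℝ ∞ (fun q => (ub m j q : ℂ)) p := by
  refine ofRealCLM.contDiff.contDiffAt.comp p ?_
  cases j with
  | inl i => exact m.U_smooth i p hp
  | inr k => exact m.t_smooth k p hp

lemma per_ub : Per (ub m j) := by
  cases j with
  | inl i => exact m.U_periodic i
  | inr k => exact m.t_periodic k

lemma cd_ubJ (hp : m.w0 < p.1) : ContDiffAt ℝ 2 (ubJ m j) p :=
  contDiffAt_cj ((cd_ub m j hp).of_le (by norm_cast))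

lemma pj_scl {U : ℝ × ℝ → ℂ} (hU : ContDiffAt ℝ 2 U p) (h0 : 0 < p.1) :
    pj (fun q : ℝ × ℝ => scl j q.1 * U q) p = sJ (scl j p.1) (sd j p.1) (pj U p) := by
  cases j with
  | inl i => exact pj_kap hU h0
  | inr k => simp [scl, sd, sJ_one]

lemma cd_tE {μ : ℝ × ℝ → ℂ} {n : WithTop ℕ∞} (hn : n ≤ ∞) (hp : m.w0 < p.1)
    (hμ : ContDiffAt ℝ n μ p) : ContDiffAt ℝ n (fun q => tE m ε j q (μ q)) p :=
  ((cd_scl j (pos_of_lt m hp)).of_le hn).mul
    (((cd_ub m j hp).of_le hn).add (contDiffAt_const.mul hμ))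

lemma pj_tE {μ : ℝ × ℝ → ℂ} (hp : m.w0 < p.1) (hμ : ContDiffAt ℝ 2 μ p) :
    pj (fun q => tE m ε j q (μ q)) p = tJ m ε j p (pj μ p) := by
  have h1 := (cd_ub m j hp).of_le two_le_inf
  have h2 : ContDiffAt ℝ 2 (fun q => (sgn (ε j) : ℂ) • μ q) p := contDiffAt_const.mul hμ
  rw [tJ, ubJ, ← cj_csmul _ hμ, ← cj_add h1 h2, ← pj_scl j (h1.add h2) (pos_of_lt m hp)]
  rfl

lemma tE_ne (hp : m.w0 < p.1) {u : ℂ} (hu : ‖u‖ < 1) : 1 + tE m ε j p u ^ 2 ≠ 0 := by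
  obtain ⟨r, h0, h1, e⟩ := scl_rep j (m.one_le.trans hp.le)
  refine one_add_sq_ne' ?_
  have h2 := (abs_im_le_norm u).trans_lt hu
  simp only [tE, e, mul_im, ofReal_re, add_im, ofReal_im, zero_mul, add_zero, zero_add, abs_mul,
    abs_sgn, abs_of_pos h0]
  nlinarith [abs_nonneg u.im]

lemma Ej_end (hp : m.w0 < p.1) (k : J2 ℂ) :
    Ej (fr m j).c ((fr m j).β p.2) (deriv (fr m j).β p.2) p.1
      (sJ (scl j p.1) (sd j p.1) (ubJ m j p + k)) = fac j p.1 * (endOp m j).E p k := by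
  cases j with
  | inl i =>
    have h1 := (rtow_cyl m i).sm 0 0 p hp
    have e : ubJ m (.inl i) p = jconst 1 + tj (TU m i) p := by
      rw [← (rtow_cyl m i).pj_eq hp, ← cj_const (d1 := ((1, 0) : ℝ × ℝ)) (d2 := (0, 1)) (x := p),
        ← cj_add contDiffAt_const (h1.of_le two_le_inf)]
      simp only [TU_zero]
      rfl
    simp only [fr, scl, sd, fac, endOp, Sum.elim_inl, cylF_c, cylF_β, cylF_dβ,
      Ej_cyl (pos_of_lt m hp), cylOp_E, e]
    simp [jconst, tj, add_assoc]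
  | inr j =>
    simp only [scl, sd, fac, endOp, Sum.elim_inr, sJ_one, one_mul, P218CN.coneOp, cOp_E]
    rfl

lemma F_Y (hp : m.w0 < p.1) : cx (m.F ((ends m).Y j p)) = XE m ε j p 0 0 := by
  cases j with
  | inl i =>
    have e : tE m ε (.inl i) p 0 = ((m.U i p / √(8 * p.1) : ℝ) : ℂ) := by
      simp [tE, scl, ub, kap, div_eq_inv_mul]
    refine (congrArg cx (m.cyl i p hp)).trans ?_
    rw [cx_isometry, cx_xiCyl, XE, e]
    simp [rotM, cay_zero, fr]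
  | inr k =>
    refine (congrArg cx (m.cone k p hp)).trans ?_
    simp [cx_xiCone, XE, rotM, fr, tE, scl, ub]

lemma per_tE (u : ℂ) : Per fun p => tE m ε j p u := fun x θ => by simp only [tE, per_ub m j x θ]

variable {a : ℝ}

lemma Phi_Y' (hp : m.w0 < p.1) (u : ℂ) (B : ι × Fin 2 → ℂ) : Phi m ε a ((ends m).Y j p) u B =
    ((1 - st a p.1 : ℝ) : ℂ) • (cx (m.F ((ends m).Y j p)) + u • cx (m.nu ((ends m).Y j p))) +
      ((st a p.1 : ℝ) : ℂ) • XE m ε j p u (((st (a + 1) p.1 : ℝ) : ℂ) • B) := by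
  rw [Phi, Ends.core_Y hp, Ends.sum_of_mem (Ends.Y_mem j hp)
    fun j' h => by rw [Ends.onEnd_of_notMem h, smul_zero], Ends.cut_Y hp, Ends.onEnd_Y _ hp]
  intro x θ
  simp only [XE, Frame.X, Frame.R_per, per_tE m ε j u x θ]

lemma Tv_Y' (hp : m.w0 < p.1) (u : ℂ) (B : ι × Fin 2 → ℂ) : Tv m ε a ((ends m).Y j p) u B =
    ((1 - st a p.1 : ℝ) : ℂ) • cx (m.nu ((ends m).Y j p)) +
      ((st a p.1 : ℝ) : ℂ) • TE m ε j p u (((st (a + 1) p.1 : ℝ) : ℂ) • B) := by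
  rw [Tv, Ends.core_Y hp, Ends.sum_of_mem (Ends.Y_mem j hp)
    fun j' h => by rw [Ends.onEnd_of_notMem h, smul_zero], Ends.cut_Y hp, Ends.onEnd_Y _ hp]
  intro x θ
  simp only [TE, Frame.Xt, Frame.R_per, per_tE m ε j u x θ]

lemma Phi_Y (ha : m.w0 < a) (hp : a + 2 ≤ p.1) (u : ℂ) (B : ι × Fin 2 → ℂ) :
    Phi m ε a ((ends m).Y j p) u B = XE m ε j p u B := by
  rw [Phi_Y' m ε j (by linarith), st_one (by linarith), st_one (by linarith)]
  simp

lemma Tv_Y (ha : m.w0 < a) (hp : a + 2 ≤ p.1) (u : ℂ) (B : ι × Fin 2 → ℂ) :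
    Tv m ε a ((ends m).Y j p) u B = TE m ε j p u B := by
  rw [Tv_Y' m ε j (by linarith), st_one (by linarith), st_one (by linarith)]
  simp

lemma cd_XE {μ : ℝ × ℝ → ℂ} {B : ι × Fin 2 → ℂ} {n : WithTop ℕ∞} (hn : n ≤ ∞) (hp : m.w0 < p.1)
    (hμ : ContDiffAt ℝ n μ p) (h1 : ‖μ p‖ < 1) : ContDiffAt ℝ n (fun q => XE m ε j q (μ q) B) p :=
  (mvL _).contDiff.contDiffAt.comp p ((fr m j).contDiffAt_X hn contDiffAt_fst contDiffAt_snd
    (cd_tE m ε j hn hp hμ) (pos_of_lt m hp) (tE_ne m ε j hp h1))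

/-- the Euler-Lagrange density of an end -/
theorem ELF_XE {μ : ℝ × ℝ → ℂ} {B : ι × Fin 2 → ℂ} (hp : m.w0 < p.1) (hμ : ContDiffAt ℝ 2 μ p)
    (h1 : ‖μ p‖ < 1) (hB : ‖B‖ < 1) :
    -ELF (1, 0) (0, 1) (fun q => XE m ε j q (μ q) B) p (TE m ε j p (μ p) B) =
      cexp (-p.1) * (scl j p.1 * fac j p.1 * fc (fr m j) p (t1 m ε j p (pj μ p).1) *
        ((endOp m j).orient (ε j)).E p (pj μ p)) := by
  have h := ELF_X ((fr m j).rot _ (rotM_orth m j hB)) (cd_tE m ε j two_le_inf hp hμ)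
    (pos_of_lt m hp) (tE_ne m ε j hp h1) (scl j p.1 * sgn (ε j))
  simp only [Frame.rot_X, Frame.rot_Xt, Frame.rot_c, Frame.rot_β, pj_tE m ε j hp hμ, t1_eq] at h
  rw [tJ, Ej_end m j hp] at h
  rw [orient_E]
  refine h.trans ?_
  rw [show fc ((fr m j).rot _ (rotM_orth m j hB)) = fc (fr m j) from rfl]
  ring

/-- the shrinker operator of an end -/
theorem PPF_XE {μ : ℝ × ℝ → ℂ} (hp : m.w0 < p.1) (hμ : ContDiffAt ℝ 2 μ p) (h1 : ‖μ p‖ < 1)
    (h : ((endOp m j).orient (ε j)).E p (pj μ p) = 0) :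
    PPF (1, 0) (0, 1) (fun q : ℝ × ℝ => (fr m j).X q.1 q.2 (tE m ε j q (μ q))) p = 0 := by
  have h2 : (sgn (ε j) : ℂ) ≠ 0 := fun e => by simpa [e] using sgn_sq (ε j)
  rw [orient_E, mul_eq_zero, or_iff_right h2] at h
  rw [P218CN.PPF_Ej _ (cd_tE m ε j two_le_inf hp hμ) (pos_of_lt m hp) (tE_ne m ε j hp h1),
    pj_tE m ε j hp hμ, tJ, Ej_end m j hp, h]
  simp

lemma pj_zero : pj (fun _ : ℝ × ℝ => (0 : ℂ)) p = 0 := by rw [pj, cj_const]; rfl

lemma F_ev (hp : m.w0 < p.1) : (fun q => cx (m.F ((ends m).Y j q))) =ᶠ[𝓝 p]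
    fun q => ((fr m j).rot _ (rotM_orth m j (B := 0) (by simp))).X q.1 q.2 (tE m ε j q 0) :=
  (Ends.ev_w0 (𝓔 := ends m) hp).mono fun q hq => by
    simp only [F_Y m ε j hq, Frame.rot_X, XE]

lemma pj_tE0 (hp : m.w0 < p.1) : (pj (fun q => tE m ε j q 0) p).1 = t0 m j p := by
  rw [pj_tE m ε j hp contDiffAt_const, pj_zero, t1_eq, Prod.fst_zero, t1_zero]

lemma LagF_F (hp : m.w0 < p.1) : LagF (1, 0) (0, 1) (fun q => cx (m.F ((ends m).Y j q))) p =
    cexp (-p.1) * Complex.sqrt (gm (fr m j) p (t0 m j p)) := by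
  rw [LagF_congr (F_ev m (fun _ => true) j hp), LagF_X _ (cd_tE m _ j one_le_inf hp
    contDiffAt_const) (pos_of_lt m hp) (tE_ne m _ j hp (by simp)), pj_tE0 m _ j hp]
  rfl

lemma real_t0 (p : ℝ × ℝ) : star (t0 m j p) = t0 m j p := by
  have h : star (ubJ m j p) = ubJ m j p := star_cj_ofReal _ _ _ p
  have h1 : star (ubJ m j p).1.1 = _ := congrArg (·.1.1) h
  have h2 : star (ubJ m j p).1.2.1 = _ := congrArg (·.1.2.1) h
  have h3 : star (ubJ m j p).1.2.2 = _ := congrArg (·.1.2.2) h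
  simp only [t0, sJ, Prod.star_def, star_mul', star_sub, star_scl, star_sd, h1, h2, h3]

lemma posJ (h : PosG m a) (hp : a ≤ p.1) : PosJ (fr m j) p (t0 m j p) := by
  refine ⟨real_t0 m j p, ?_, h j p hp⟩
  have h1 : starRingEnd ℂ (t0 m j p).1 = _ := congrArg (·.1) (real_t0 m j p)
  refine conj_eq_iff_im.1 ?_
  cases j <;> simp [Frame.G, co, si, fr, h1, coneF_c, coneF_β, map_ofNat]

end

theorem exists_posG : ∃ a, m.w0 < a ∧ PosG m a := by
  have h : ∀ j, ∀ᶠ p in far, 0 < ((fr m j).G p.2 (t0 m j p).1).re := fun j => by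
    simp only [t0_fst m (fun _ => true), tE, mul_zero, add_zero]
    cases j with
    | inl i =>
      have h1 : Tendsto (TU m i 0 0) far (𝓝 0) := by simpa using (rtow_cyl m i).lim 0 0
      filter_upwards [ev_lt_re h1 (r := -1) (by simp), ev_gt 0] with p h2 h3
      have h4 : 0 < m.U i p := by
        have := congrArg re (TU_zero m i p)
        simp only [add_re, one_re, ofReal_re] at this
        linarith
      have h5 : 0 < √(8 * p.1) := Real.sqrt_pos.2 (by linarith)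
      simp only [fr, scl, ub, Sum.elim_inl, cylF_G, si, kap]
      norm_cast
      positivity
    | inr k =>
      have h1 : Tendsto (Tt m k 0 0) far (𝓝 0) := by simpa using (rtow_cone m k).lim 0 0
      have h2 := lim_k m k (Φ := fun z : (ℂ × ℂ) × ℂ => P218CN.gg ((m.L k).c : ℂ) z.1.1 z.2)
        (by unfold P218CN.gg; fun_prop) (L := ((m.L k).c : ℂ)) (fun _ => by simp [P218CN.gg]) h1
      filter_upwards [ev_lt_re h2 (r := 0) (m.L k).c_pos] with p h3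
      have e : lam (m.t k p : ℂ) = ((1 + m.t k p ^ 2 : ℝ) : ℂ) := by simp [lam]
      simp only [fr, scl, ub, Sum.elim_inr, Frame.G_eq, one_mul, e, div_ofReal_re]
      exact div_pos h3 (by positivity)
  obtain ⟨R, hR⟩ := ev_far.1 ((ev_gt m.w0).and (eventually_all.2 h))
  exact ⟨R, (hR (R, 0) le_rfl).1, fun j p hp => (hR p hp).2 j⟩

lemma PosG.mono {a b : ℝ} (h : PosG m a) (hab : a ≤ b) : PosG m b :=
  fun j p hp => h j p (hab.trans hp)

section
variable {a : ℝ} (j : ι ⊕ κ) {p : ℝ × ℝ}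

/-- the normal is transversal to the angular direction -/
lemma nu_Xt (ha : m.w0 < a) (h : PosG m a) (hp : a ≤ p.1) :
    (cx (m.nu ((ends m).Y j p)) ⬝ᵥ rotM m j 0 *ᵥ (fr m j).Xt p.1 p.2 (t0 m j p).1).re ≠ 0 ∧
    (cx (m.nu ((ends m).Y j p)) ⬝ᵥ rotM m j 0 *ᵥ (fr m j).Xt p.1 p.2 (t0 m j p).1).im = 0 := by
  have hp' := ha.trans_le hp
  have h0 := pos_of_lt m hp'
  have hJ := posJ m j h hp
  have hd := (contDiffAt_end m j hp').differentiableAt (by simp)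
  have hn : ∀ v, cx (m.nu ((ends m).Y j p)) ⬝ᵥ pd (fun q => cx (m.F ((ends m).Y j q))) v p = 0 :=
    fun v => by
      have := P218GA.inner_grad_pd (m.tube.cd1.differentiable one_ne_zero _) hd
        ((Ends.ev_w0 (𝓔 := ends m) hp').mono fun q hq => m.w_F (m.pol_mem_reg j hq)) v
      exact ((congrArg _ (pd_cx hd v)).trans (cx_dot _ _)).trans (ofReal_eq_zero.2 this)
  have h1 : cx (m.nu ((ends m).Y j p)) ⬝ᵥ cx (m.nu ((ends m).Y j p)) = 1 := by
    rw [cx_dot, real_inner_self_eq_norm_sq, m.norm_nu (Ends.Y_reg (𝓔 := ends m) j hp')]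
    simp
  have h2 := normal_sq h1 (hn (1, 0)) (hn (0, 1))
    (rotM m j 0 *ᵥ (fr m j).Xt p.1 p.2 (t0 m j p).1)
  have hF := F_ev m (fun _ => true) j hp'
  have h3 := cd_tE m (fun _ => true) j one_le_inf hp' (contDiffAt_const (c := (0 : ℂ)))
  have h4 := tE_ne m (fun _ => true) j hp' (u := 0) (by simp)
  have h5 := cross_X ((fr m j).rot _ (rotM_orth m j (B := 0) (by simp))) h3 h0 h4
  rw [← gramF, gramF_congr hF, gramF_X _ h3 h0 h4, pd_congr hF, pd_congr hF, pj_tE0 m _ j hp',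
    t0_fst m (fun _ => true), ← Frame.rot_Xt _ (rotM_orth m j (B := 0) (by simp)), h5,
    ← t0_fst m (fun _ => true)] at h2
  have hJ' : PosJ ((fr m j).rot _ (rotM_orth m j (B := 0) (by simp))) p (t0 m j p) :=
    ⟨hJ.real, hJ.im, hJ.pos⟩
  obtain ⟨r, hr, e⟩ := hJ'.gm_pos
  obtain ⟨s, hs, e'⟩ := hJ'.triple_sq h0
  rw [e, e', Frame.rot_Xt] at h2
  exact re_ne_of_sq hr hs h2

lemma contOn_nu_Xt (ha : m.w0 < a) : ContinuousOn (fun p : ℝ × ℝ => (cx (m.nu ((ends m).Y j p)) ⬝ᵥ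
    rotM m j 0 *ᵥ (fr m j).Xt p.1 p.2 (t0 m j p).1).re) {p | a ≤ p.1} := by
  have h1 : ContinuousOn (fun p => cx (m.nu ((ends m).Y j p))) {p | a ≤ p.1} := fun p hp =>
    (cx.continuous.continuousAt.comp (ContinuousAt.comp (g := m.nu)
      (m.ckAt_nu (Ends.Y_reg (𝓔 := ends m) j (ha.trans_le hp))).continuousAt
      (Ends.continuousAt_Y j (ha.trans_le hp)))).continuousWithinAt
  have h2 : ContinuousOn (fun p => tE m (fun _ => true) j p 0) {p | a ≤ p.1} := fun p hp =>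
    (cd_tE m _ j (n := 0) (by simp) (ha.trans_le hp) contDiffAt_const).continuousAt
      |>.continuousWithinAt
  have h3 : ∀ p ∈ {p : ℝ × ℝ | a ≤ p.1}, 1 + tE m (fun _ => true) j p 0 ^ 2 ≠ 0 := fun p hp =>
    tE_ne m _ j (ha.trans_le hp) (by simp)
  have h4 := (fr m j).contOn_R continuousOn_snd h2 h3 (contOn_vec (continuousOn_const (c := 0))
    ((continuousOn_const (c := 2).mul (continuous_rt.comp continuous_fst).continuousOn).mul
      (contOn_d1 h2 h3 (continuousOn_const (c := 1)))) (continuousOn_const (c := 0)))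
  have h5 := (mvL (rotM m j 0)).continuous.comp_continuousOn h4
  simp only [t0_fst m (fun _ => true), dotProduct]
  exact continuous_re.comp_continuousOn (continuousOn_finsetSum _ fun i _ =>
    (continuousOn_pi.1 h1 i).mul (continuousOn_pi.1 h5 i))

lemma nu_TE (p : ℝ × ℝ) (V : C3) : V ⬝ᵥ TE m ε j p 0 0 =
    scl j p.1 * sgn (ε j) * V ⬝ᵥ rotM m j 0 *ᵥ (fr m j).Xt p.1 p.2 (t0 m j p).1 := by
  rw [TE, dotProduct_smul, t0_fst m ε, smul_eq_mul]

lemma im_nu_TE (ha : m.w0 < a) (h : PosG m a) (hp : a ≤ p.1) :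
    (cx (m.nu ((ends m).Y j p)) ⬝ᵥ TE m ε j p 0 0).im = 0 := by
  obtain ⟨r, -, -, e⟩ := scl_rep j (m.one_le.trans (ha.le.trans hp))
  rw [nu_TE, e, ← ofReal_mul, im_ofReal_mul, (nu_Xt m j ha h hp).2, mul_zero]

end

theorem exists_orient {a : ℝ} (ha : m.w0 < a) (h : PosG m a) : ∃ ε, Orient m ε a := by
  classical
  let f := fun j (p : ℝ × ℝ) => (cx (m.nu ((ends m).Y j p)) ⬝ᵥ
    rotM m j 0 *ᵥ (fr m j).Xt p.1 p.2 (t0 m j p).1).re
  refine ⟨fun j => decide (0 < f j (a, 0)), fun j p hp => ?_⟩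
  obtain ⟨r, hr, -, e⟩ := scl_rep j (m.one_le.trans (ha.le.trans hp))
  rw [nu_TE, e, ← ofReal_mul, re_ofReal_mul, mul_assoc]
  refine mul_pos hr ?_
  have hc : IsPreconnected {p : ℝ × ℝ | a ≤ p.1} :=
    ((convex_Ici a).linear_preimage (LinearMap.fst ℝ ℝ ℝ)).isPreconnected
  have h0 : 0 ∉ f j '' {p | a ≤ p.1} := by
    rintro ⟨q, hq, e⟩
    exact (nu_Xt m j ha h hq).1 e
  have hm : ((a, 0) : ℝ × ℝ) ∈ {p : ℝ × ℝ | a ≤ p.1} := le_refl a
  change 0 < _ * f j p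
  by_cases h1 : 0 < f j (a, 0)
  · simp only [sgn, h1, decide_true, if_true, one_mul]
    by_contra h2
    exact h0 (hc.intermediate_value hp hm (contOn_nu_Xt m j ha) ⟨not_lt.1 h2, h1.le⟩)
  · simp only [sgn, h1, decide_false, Bool.false_eq_true, if_false, neg_mul, one_mul, neg_pos]
    by_contra h2
    exact h0 (hc.intermediate_value hm hp (contOn_nu_Xt m j ha) ⟨not_lt.1 h1, not_lt.1 h2⟩)

lemma Orient.mono {a b : ℝ} (h : Orient m ε a) (hab : a ≤ b) : Orient m ε b :=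
  fun j p hp => h j p (hab.trans hp)

section
variable {a : ℝ} (j : ι ⊕ κ) {p : ℝ × ℝ}

lemma surf_ev (ha : m.w0 < a) (hp : a + 2 < p.1) (U : M → ℂ) (B : ι × Fin 2 → ℂ) :
    (fun q => surf m ε a U B ((ends m).Y j q)) =ᶠ[𝓝 p]
      fun q => XE m ε j q (U ((ends m).Y j q)) B :=
  (continuous_fst.continuousAt.eventually (lt_mem_nhds hp)).mono fun _ hq =>
    Phi_Y m ε j ha hq.le _ _

lemma contAt_t1 (hp : m.w0 < p.1) (k : T3 ℂ) :
    ContinuousAt (fun q : (ℝ × ℝ) × T3 ℂ => t1 m ε j q.1 q.2) (p, k) := by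
  have h0 := pos_of_lt m hp
  have h1 := ContinuousAt.comp (f := Prod.fst) (x := (p, k)) (cd_scl j h0).continuousAt
    continuousAt_fst
  have h2 := ContinuousAt.comp (f := Prod.fst) (x := (p, k)) (cd_sd j h0).continuousAt
    continuousAt_fst
  have h3 := ContinuousAt.comp (f := Prod.fst) (x := (p, k)) (cd_ubJ m j hp).continuousAt
    continuousAt_fst
  have h4 : ContinuousAt (fun q : (ℝ × ℝ) × T3 ℂ => (ubJ m j q.1).1 + (sgn (ε j) : ℂ) • q.2)
      (p, k) := h3.fst.add (by fun_prop)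
  exact (h1.mul h4.fst).prodMk
    ((h1.mul (h4.snd.fst.sub (h2.mul h4.fst))).prodMk (h1.mul h4.snd.snd))

theorem contAt_geoG (ha : m.w0 < a) (h : PosG m a) (hp : a ≤ p.1) :
    ContinuousAt (fun q : (ℝ × ℝ) × T3 ℂ => geoG m ε j q.1 q.2) (p, 0) := by
  have hp' := ha.trans_le hp
  have h0 := pos_of_lt m hp'
  have hJ := posJ m j h hp
  have h1 := ContinuousAt.comp (f := Prod.fst) (x := (p, (0 : T3 ℂ))) (cd_scl j h0).continuousAt
    continuousAt_fst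
  have h2 := ContinuousAt.comp (f := Prod.fst) (x := (p, (0 : T3 ℂ))) (cd_fac j h0).continuousAt
    continuousAt_fst
  have h3 := continuousAt_fst.prodMk (contAt_t1 m ε j hp' 0)
  have h4 : ContinuousAt (fun q : (ℝ × ℝ) × T3 ℂ => (q.1, t0 m j q.1)) (p, 0) := by
    simp only [← t1_zero m ε]
    exact ContinuousAt.comp (f := fun q : (ℝ × ℝ) × T3 ℂ => (q.1, (0 : T3 ℂ))) (x := (p, 0)) h3
      (by fun_prop)
  have h5 := ContinuousAt.comp_of_eq (contAt_fc (fr m j) (q := (p, t0 m j p)) hJ.ne hJ.slit) h3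
    (by rw [t1_zero])
  have h6 := ContinuousAt.comp_of_eq (contAt_gm (fr m j) (q := (p, t0 m j p)) hJ.ne) h4 rfl
  obtain ⟨r, hr, e⟩ := hJ.sqrt_pos
  exact ((h1.mul h2).mul h5).div (ContinuousAt.comp (g := Complex.sqrt)
    (hasDerivAt_sqrt' hJ.slit).continuousAt h6) (e ▸ ofReal_ne_zero.2 hr.ne')

theorem geoG_pos (ha : m.w0 < a) (h : PosG m a) (hp : a ≤ p.1) :
    ∃ r : ℝ, 0 < r ∧ geoG m ε j p 0 = r := by
  have hJ := posJ m j h hp
  obtain ⟨r1, h1, -, e1⟩ := scl_rep j (m.one_le.trans (ha.le.trans hp))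
  obtain ⟨r2, h2, e2⟩ := fac_rep j (pos_of_lt m (ha.trans_le hp))
  obtain ⟨r3, h3, e3⟩ := hJ.fc_pos
  obtain ⟨r4, h4, e4⟩ := hJ.sqrt_pos
  exact ⟨r1 * r2 * r3 / r4, by positivity, by rw [geoG, t1_zero, e1, e2, e3, e4]; simp⟩

variable [T2Space M] [RSm E2 M] [CompactSpace M]

/-- **The geometric operator on the ends.** -/
theorem geoN_Y (ha : m.w0 < a) (hp : a + 2 < p.1) {U : M → ℂ} {B : ι × Fin 2 → ℂ}
    (hU : CkAt 2 U ((ends m).Y j p)) (h1 : ‖U ((ends m).Y j p)‖ < 1) (hB : ‖B‖ < 1) :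
    geoN m ε a U B ((ends m).Y j p) = geoG m ε j p (pj (fun q => U ((ends m).Y j q)) p).1 *
      ((endOp m j).orient (ε j)).E p (pj (fun q => U ((ends m).Y j q)) p) := by
  have hp' : m.w0 < p.1 := by linarith
  have hμ := Ends.contDiffAt_Y (𝓔 := ends m) hp' hU
  have hF := m.rimm.imm (m.pol_mem_reg j hp')
  have hX : CkAt 2 (surf m ε a U B) ((ends m).Y j p) := Ends.ckAt_Y two_le_inf hp'
    ((cd_XE m ε j two_le_inf hp' hμ h1).congr_of_eventuallyEq (surf_ev m ε j ha hp U B))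
  have h2 := ELM_param (d1 := ((1, 0) : ℝ × ℝ)) (d2 := (0, 1)) (m.mem j) (m.pol_mem j hp') hF hX
    contDiff_pol.contDiffAt (jac_pol_ne p) (TE m ε j p (U ((ends m).Y j p)) B)
  have h3 := ELF_XE m ε j hp' hμ h1 hB
  have h4 := LagF_F m j hp'
  have h6 : LagF (1, 0) (0, 1) (fun q => cx (m.F ((ends m).Y j q))) p ≠ 0 := by
    have := LagF_comp (d1 := ((1, 0) : ℝ × ℝ)) (d2 := (0, 1))
      ((hF.ck.at_target (m.mem j) (m.pol_mem j hp')).differentiableAt (by norm_num))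
      (differentiable_pol p) (jac_pol_ne p)
    refine this ▸ mul_ne_zero (ofReal_ne_zero.2 (abs_ne_zero.2 (jac_pol_ne p)))
      (mul_ne_zero (wt_ne _) (ar_ne' (hF.slit_target (m.mem j) (m.pol_mem j hp'))))
  rw [← ELF_congr (surf_ev m ε j ha hp U B)] at h3
  refine mul_right_cancel₀ h6 ?_
  rw [geoN, Tv_Y m ε j ha hp.le, neg_mul]
  refine (congrArg Neg.neg h2).trans (h3.trans ?_)
  rw [h4] at h6 ⊢
  have h7 := right_ne_zero_of_mul h6
  rw [geoG]
  field_simp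

end

end Vale.Agent.P218GC
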