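import Vale.Agent.P218CO.Map

/-! # Value, realness and zero of the function which defines the composition operator -/

open Set Filter Metric Topology Complex MeasureTheory
open scoped ContDiff

noncomputable section

set_option linter.unusedSectionVars false
set_option linter.unusedVariables false

namespace Vale.Agent.P218GC

open Vale.Agent.P218VA Vale.Agent.P218MP Vale.Agent.P272.K.LIN Vale.Agent.P218CO
open Vale.Agent.P218GA (pol)

variable {σ β Λ τ M : Type} [TopologicalSpace M] [ChartedSpace E2 M] [Fintype σ] [Fintype β]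
  [Fintype Λ] [Fintype τ] [T2Space M] [RSm E2 M] {𝒞 : Cov E2 M} {c : CoreOp σ β M} {s : ℝ}

lemma sum_pu (𝒞 : Cov E2 M) (x : M) : ∑ i, pu 𝒞 i x = 1 := by
  obtain ⟨i, hx, hi⟩ := 𝒞.cover x
  have h1 : 𝒞.η i x = 1 := 𝒞.η_eq_one hx
    (ball_subset_closedBall (ball_subset_ball (by linarith [𝒞.r_pos i]) hi))
  have h2 : 0 < ∑ k, 𝒞.η k x * 𝒞.η k x := Finset.sum_pos' (fun k _ => mul_self_nonneg _)
    ⟨i, Finset.mem_univ _, by rw [h1]; norm_num⟩
  simp only [pu]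
  rw [← Finset.sum_div, div_self h2.ne']

lemma pu_nonneg (𝒞 : Cov E2 M) (i : Fin 𝒞.N) (x : M) : 0 ≤ pu 𝒞 i x :=
  div_nonneg (mul_self_nonneg _) (Finset.sum_nonneg fun _ _ => mul_self_nonneg _)

lemma mem_of_pu {i : Fin 𝒞.N} {x : M} (h : pu 𝒞 i x ≠ 0) : x ∈ (𝒞.e i).source :=
  (𝒞.η_ne_zero fun e => h (by rw [pu, e, zero_mul, zero_div])).1

lemma mul_congr_of_ne {a : ℝ} {z z' : ℂ} (h : a ≠ 0 → z = z') : (a : ℂ) * z = a * z' := by
  rcases eq_or_ne a 0 with rfl | h0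
  · simp
  · rw [h h0]

lemma im_mul_of_ne {a : ℝ} {z : ℂ} (h : a ≠ 0 → z.im = 0) : ((a : ℂ) * z).im = 0 := by
  rcases eq_or_ne a 0 with rfl | h0
  · simp
  · rw [im_ofReal_mul, h h0, mul_zero]

lemma reg_of_core {𝓔 : Ends σ M} {a : ℝ} {x : M} (h : 𝓔.core a x ≠ 0) : x ∈ 𝓔.reg :=
  Ends.below_reg (Ends.below_of_core_ne h)

lemma mem_of_cut {𝓔 : Ends σ M} {j : σ} {a : ℝ} {x : M} (h : 𝓔.cut j a x ≠ 0) :
    x ∈ (𝓔.φ j).source := by
  by_contra hx
  exact h (Ends.cut_of_notMem hx)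

/-- the support of the collar cutoff -/
lemma collar_of_cut {𝓔 : Ends σ M} {j : σ} {x : M}
    (h : 𝓔.cut j (s + 2) x - 𝓔.cut j (s + 6) x ≠ 0) : x ∈ (𝓔.φ j).source ∧
      pol (lp (𝓔.φ j x)) = 𝓔.φ j x ∧ 𝓔.Y j (lp (𝓔.φ j x)) = x ∧ s + 2 < (lp (𝓔.φ j x)).1 ∧
        (lp (𝓔.φ j x)).1 < s + 7 := by
  have hx : x ∈ (𝓔.φ j).source := by
    by_contra hx
    exact h (by rw [Ends.cut_of_notMem hx, Ends.cut_of_notMem hx, sub_self])
  rw [Ends.cut_of_mem hx, Ends.cut_of_mem hx] at h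
  have h0 : 𝓔.φ j x ≠ 0 := fun e => h (by rw [e, Ends.stp_zero, Ends.stp_zero, sub_self])
  have h1 := pol_lp h0
  rw [← h1, Ends.stp_pol, Ends.stp_pol] at h
  refine ⟨hx, h1, by rw [Ends.Y, h1, (𝓔.φ j).left_inv hx], not_le.1 fun h2 => h ?_,
    not_le.1 fun h2 => h ?_⟩
  · rw [st_zero h2, st_zero (by linarith), sub_self]
  · rw [st_one (by linarith), st_one (by linarith), sub_self]

lemma RC_JH' {e : OpenPartialHomeomorph M E2} (he : e ∈ atlas E2 M) {x : M} (hx : x ∈ e.source)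
    (v : VC 𝒞) : RC 𝒞 e (e x) (JH v x) = cj u1 u2 (cX e (fnC v)) (e x) := by
  have h := RC_JH he (e.map_source hx) v
  rwa [e.left_inv hx] at h

lemma psiN_eq (hc : c.Good s) (v : VC 𝒞) (hv : ‖v‖ < 1 / 2) {B : β → ℂ} (hB : ‖B‖ < 1)
    (o : σ → T3 ℂ) {x : M} (hx : x ∈ c.𝓔.reg) : c.PsiN 𝒞 x (JH v x, o, B) = c.N (fnC v) B x := by
  have h1 : ‖fnC v x‖ < 1 := by linarith [norm_fnC_le v x]
  rw [CoreOp.PsiN, Finset.sum_congr rfl fun i _ => mul_congr_of_ne (z' := c.N (fnC v) B x)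
    fun h => by rw [hc.chart _ (𝒞.mem i) x (mem_of_pu h) hx _ B (ckAt_fnC v x) h1 hB,
      RC_JH' (𝒞.mem i) (mem_of_pu h)], ← Finset.sum_mul, ← ofReal_sum, sum_pu]
  simp

/-- the composition operator gives the system -/
theorem psi_eq (hc : c.Good s) (v : VC 𝒞) (hv : ‖v‖ < 1 / 2) {B : β → ℂ} (hB : ‖B‖ < 1)
    {μ : σ → ℝ × ℝ → ℂ} (o : M → σ → T3 ℂ)
    (ho : ∀ j (p : ℝ × ℝ), s + 2 ≤ p.1 → p.1 ≤ s + 7 → o (c.𝓔.Y j p) j = (pj (μ j) p).1)
    (e : Λ → M → ℝ) (l : Λ → ℂ) (x : M) :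
    c.Psi 𝒞 s x (JH v x, o x, B) - ∑ k, l k * e k x = c.sysFun s e (fnC v) B l μ x := by
  rw [CoreOp.Psi, CoreOp.sysFun, mul_congr_of_ne fun h => psiN_eq hc v hv hB _ (reg_of_core h)]
  congr 2
  refine Finset.sum_congr rfl fun j _ => ?_
  congr 1
  · refine mul_congr_of_ne fun h => ?_
    obtain ⟨hx, h1, h2, h3, h4⟩ := collar_of_cut h
    have h5 := RP_JH (c.𝓔.mem j) (p := lp (c.𝓔.φ j x))
      (by rw [h1]; exact (c.𝓔.φ j).map_source hx) v
    have h6 := ho j _ h3.le h4.le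
    rw [h1, (c.𝓔.φ j).left_inv hx] at h5
    rw [h2] at h6
    rw [CoreOp.PsiC, Ends.onEnd, ext0_of_mem hx, h5, ← h6]
    rfl
  · refine mul_congr_of_ne fun h => ?_
    rw [CoreOp.PsiL, Ends.lapE, RC_JH' (c.𝓔.mem j) (mem_of_cut h)]

lemma star_COL {o : EndOp} (ho : o.Good s) (s' : ℝ) (p : ℝ × ℝ) {jv : J2 ℂ} {jμ : T3 ℂ}
    (hv : star jv = jv) (hμ : star jμ = jμ) : star (o.COL s' p jv jμ) = o.COL s' p jv jμ := by
  have k : ∀ χ w, star (d012 χ w) = d012 χ w := fun χ w => by simp [d012, Prod.ext_iff]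
  have k1 : ∀ a b : T3 ℂ, star (jm1 a b) = jm1 (star a) (star b) := fun a b => by
    simp [jm1, Prod.ext_iff]
  have k2 : ∀ a b : T3 ℂ, star (jcm a b) = jcm (star a) (star b) := fun a b => by
    simp [jcm, Prod.ext_iff]
  have k3 : ∀ a b : T3 ℂ, star (pair a b) = pair (star a) (star b) := fun a b => by simp [pair]
  have k4 : star (rh s' p.1) = rh s' p.1 := by simp [rh]
  have h1 : star jv.1 = jv.1 := congrArg Prod.fst hv
  have h2 : star jv.2 = jv.2 := congrArg Prod.snd hv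
  have h3 : star (c1 s' p.1) = c1 s' p.1 := k _ _
  have h4 : star (c1 s' p.1).1 = (c1 s' p.1).1 := congrArg Prod.fst h3
  have h5 : star (u1j s' p.1 jv.1 jμ) = u1j s' p.1 jv.1 jμ := by
    rw [u1j, star_add, k1, k1, h1, hμ, h3, c2, k]
  simp only [EndOp.COL, star_sub, star_add, star_mul', star_smul, star_one, k2, k3, k4, h2, h3, h4,
    hμ, ho.ra p _ h5, ho.rb p _ h5, ho.rb p _ hμ, ho.rH p]

theorem psi_real (hc : c.Good s) (x : M) (J : JV 𝒞) (q : (σ → T3 ℂ) × (β → ℂ))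
    (hq : star q = q) : (c.Psi 𝒞 s x (Cx.ofR J, q)).im = 0 := by
  have h1 : star q.1 = q.1 := congrArg Prod.fst hq
  have h2 : star q.2 = q.2 := congrArg Prod.snd hq
  rw [CoreOp.Psi, add_im, im_sum, im_mul_of_ne fun h => ?_, zero_add]
  · refine Finset.sum_eq_zero fun j _ => ?_
    rw [add_im, im_mul_of_ne fun _ => ?_, im_mul_of_ne fun _ => ?_, add_zero]
    · have h3 := star_RC (e := c.𝓔.φ j) (y := c.𝓔.φ j x) J
      rw [CoreOp.PsiL, add_im, conj_eq_iff_im.1 (congrArg (·.2.1) h3),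
        conj_eq_iff_im.1 (congrArg (·.2.2.2) h3), add_zero]
    · exact conj_eq_iff_im.1 (star_COL (hc.ops j) s _ (star_RP J) (congrFun h1 j))
  · rw [CoreOp.PsiN, im_sum]
    exact Finset.sum_eq_zero fun i _ => im_mul_of_ne fun h' =>
      hc.real _ (𝒞.mem i) x (mem_of_pu h') (reg_of_core h) _ (Prod.ext (star_RC J) h2)

theorem psi_zero (hc : c.Good s) (x : M) : c.Psi 𝒞 s x 0 = 0 := by
  rw [CoreOp.Psi, mul_congr_of_ne (z' := 0) fun h => ?_, mul_zero, zero_add]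
  · refine Finset.sum_eq_zero fun j _ => ?_
    rw [mul_congr_of_ne (z' := 0) fun h => ?_, CoreOp.PsiL]
    · simp
    · rw [CoreOp.PsiC, Prod.fst_zero, map_zero]
      exact EndOp.COL_zero ((hc.ops j).base _ (by linarith [(collar_of_cut h).2.2.2.1]))
  · refine Finset.sum_eq_zero fun i _ => ?_
    rw [mul_congr_of_ne (z' := 0) fun h' => ?_, mul_zero]
    rw [Prod.fst_zero, map_zero]
    exact hc.base _ (𝒞.mem i) x (mem_of_pu h') (reg_of_core h)

variable [CompactSpace M] [MeasurableSpace M] [BorelSpace M] {μ0 : Measure M} {e' : τ → M → ℝ}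

lemma mom_ofR (u : VR 𝒞) (i : τ) :
    mom μ0 e' (fnC (Cx.ofR u)) i = (∫ x, e' i x * fnR u x ∂μ0 : ℝ) := by
  simp only [mom, fnC_ofR, ← ofReal_mul, integral_complex_ofReal]

lemma continuous_fnC (v : VC 𝒞) : Continuous (fnC v) :=
  continuous_iff_continuousAt.2 fun x => (ckAt_fnC v x).continuousAt

/-- the moments are continuous linear functionals -/
theorem momL [IsFiniteMeasure μ0] (he : ∀ i, Continuous (e' i)) :
    ∃ L : VC 𝒞 →L[ℂ] (τ → ℂ), ∀ v, L v = mom μ0 e' (fnC v) := by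
  have hi : ∀ i (v : VC 𝒞), Integrable (fun x => (e' i x : ℂ) * fnC v x) μ0 := fun i v =>
    ((continuous_ofReal.comp (he i)).mul (continuous_fnC v)).integrable_of_hasCompactSupport
      (HasCompactSupport.of_compactSpace _)
  have hb : ∀ i (v : VC 𝒞), ‖mom μ0 e' (fnC v) i‖ ≤ (∫ x, ‖e' i x‖ ∂μ0) * 2 * ‖v‖ := fun i v => by
    rw [mul_assoc, ← integral_mul_const]
    refine norm_integral_le_of_norm_le (((he i).norm.integrable_of_hasCompactSupport
      (HasCompactSupport.of_compactSpace _)).mul_const _) (Eventually.of_forall fun x => ?_)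
    rw [norm_mul, norm_real]
    exact mul_le_mul_of_nonneg_left (norm_fnC_le v x) (norm_nonneg _)
  refine ⟨ContinuousLinearMap.pi fun i => LinearMap.mkContinuous
    { toFun := fun v => mom μ0 e' (fnC v) i
      map_add' := fun u v => ?_
      map_smul' := fun a v => ?_ } _ (hb i), fun v => rfl⟩
  · simp only [mom, fnC_add, mul_add]
    exact integral_add (hi i u) (hi i v)
  · simp only [mom, fnC_smul, RingHom.id_apply, smul_eq_mul, mul_left_comm _ a, integral_const_mul]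

end Vale.Agent.P218GC
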