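import Vale.Agent.P218OP.Cone
import Vale.Agent.P218CO.Geo

/-! The Euler-Lagrange density of an angular graph over a frame. -/

open Set Filter Topology Complex
open scoped ContDiff Matrix

noncomputable section

namespace Vale.Agent.P218GC

open Vale.Agent.P218VA Vale.Agent.P218CO Vale.Agent.P218XI Vale.Agent.P218MP
open Vale.Agent.P218CN (Ej lam PPF_Ej)
open Vale.Agent.P218EN (xf ef pE)

/-- the Gram determinant in terms of the first order jet of the angle -/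
def gm (F : Frame) (p : ℝ × ℝ) (k : T3 ℂ) : ℂ :=
  4 * (d1 k.1 k.2.2 ^ 2 + F.G p.2 k.1 ^ 2 * (1 + 4 * p.1 ^ 2 * d1 k.1 k.2.1 ^ 2))

/-- the factor between the Euler-Lagrange density and the polynomial operator -/
def fc (F : Frame) (p : ℝ × ℝ) (k : T3 ℂ) : ℂ :=
  16 * d1 k.1 1 * F.G p.2 k.1 / (lam k.1 ^ 6 * Complex.sqrt (gm F p k) ^ 3)

section fr
variable (F : Frame) {t : ℝ × ℝ → ℂ} {p : ℝ × ℝ}

lemma gramF_X (ht : ContDiffAt ℝ 1 t p) (h0 : 0 < p.1) (h : 1 + t p ^ 2 ≠ 0) :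
    gramF (1, 0) (0, 1) (fun q : ℝ × ℝ => F.X q.1 q.2 (t q)) p = gm F p (pj t p).1 := by
  obtain ⟨e1, e2⟩ := F.pd_X1 ht h0 h
  rw [gramF, e1, e2, F.gram_eq _ _ _ h0 h]
  rfl

lemma LagF_X (ht : ContDiffAt ℝ 1 t p) (h0 : 0 < p.1) (h : 1 + t p ^ 2 ≠ 0) :
    LagF (1, 0) (0, 1) (fun q : ℝ × ℝ => F.X q.1 q.2 (t q)) p =
      cexp (-p.1) * Complex.sqrt (gm F p (pj t p).1) := by
  rw [LagF, Lag, F.wt_X _ h0.le h, ar, ← gramF, gramF_X F ht h0 h]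

lemma cross_X (ht : ContDiffAt ℝ 1 t p) (h0 : 0 < p.1) (h : 1 + t p ^ 2 ≠ 0) :
    pd (fun q : ℝ × ℝ => F.X q.1 q.2 (t q)) (1, 0) p ⨯₃
      pd (fun q : ℝ × ℝ => F.X q.1 q.2 (t q)) (0, 1) p ⬝ᵥ F.Xt p.1 p.2 (t p) =
        F.sg p.2 * -(4 * rt p.1 * d1 (t p) 1 * F.G p.2 (t p)) := by
  obtain ⟨e1, e2⟩ := F.pd_X1 ht h0 h
  rw [e1, e2, F.Xt_triple _ _ _ h0 h]

theorem ELF_X (ht : ContDiffAt ℝ 2 t p) (h0 : 0 < p.1) (h : 1 + t p ^ 2 ≠ 0) (c : ℂ) :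
    -ELF (1, 0) (0, 1) (fun q : ℝ × ℝ => F.X q.1 q.2 (t q)) p (c • F.Xt p.1 p.2 (t p)) =
      cexp (-p.1) * (c * fc F p (pj t p).1 * Ej F.c (F.β p.2) (deriv F.β p.2) p.1 (pj t p)) := by
  have h1 : ContDiffAt ℝ 1 t p := ht.of_le (by norm_num)
  have hr := rt_ne h0
  have e1 := PPF_Ej F ht h0 h
  rw [PPF] at e1
  rw [ELF, EL, neg_neg, e1, ar, ← gramF, gramF_X F h1 h0 h, dotProduct_smul,
    cross_X F h1 h0 h, F.wt_X _ h0.le h, fc, smul_eq_mul]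
  have e : (pj t p).1.1 = t p := rfl
  have hl : lam (t p) ≠ 0 := h
  rw [e]
  generalize Complex.sqrt (gm F p (pj t p).1) = A
  rcases eq_or_ne A 0 with rfl | hA
  · simp
  field_simp
  linear_combination (16 * c * d1 (t p) 1 * F.G p.2 (t p) *
    Ej F.c (F.β p.2) (deriv F.β p.2) p.1 (pj t p)) * F.sg_sq p.2

lemma one_add_sq_ne' {t : ℂ} (h : |t.im| < 1) : 1 + t ^ 2 ≠ 0 := fun e => by
  have h1 := congrArg re e
  have h2 := sq_lt_one_iff_abs_lt_one t.im |>.2 h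
  simp only [add_re, one_re, sq, mul_re, zero_re] at h1
  nlinarith [mul_self_nonneg t.re]

lemma contAt_gm {q : (ℝ × ℝ) × T3 ℂ} (h : 1 + q.2.1 ^ 2 ≠ 0) :
    ContinuousAt (fun q : (ℝ × ℝ) × T3 ℂ => gm F q.1 q.2) q := by
  have := F.β_sm.continuous
  unfold gm d1 Frame.G co si
  fun_prop (disch := assumption)

lemma contAt_fc {q : (ℝ × ℝ) × T3 ℂ} (h : 1 + q.2.1 ^ 2 ≠ 0) (hs : gm F q.1 q.2 ∈ slitPlane) :
    ContinuousAt (fun q : (ℝ × ℝ) × T3 ℂ => fc F q.1 q.2) q := by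
  have := F.β_sm.continuous
  have h1 : ContinuousAt (fun q : (ℝ × ℝ) × T3 ℂ => Complex.sqrt (gm F q.1 q.2)) q :=
    ContinuousAt.comp (g := Complex.sqrt) (hasDerivAt_sqrt' hs).continuousAt (contAt_gm F h)
  have h2 : (1 + q.2.1 ^ 2) ^ 6 * Complex.sqrt (gm F q.1 q.2) ^ 3 ≠ 0 :=
    mul_ne_zero (pow_ne_zero _ h) (pow_ne_zero _ fun e => slitPlane_ne_zero hs (by
      rw [← Complex.cpow_ofNat_inv_pow (gm F q.1 q.2) 2, ← Complex.sqrt, e]; ring))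
  unfold fc lam
  refine ContinuousAt.div ?_ (ContinuousAt.mul (by fun_prop) (h1.pow 3)) h2
  unfold d1 Frame.G co si
  fun_prop (disch := assumption)

variable {F} {k : T3 ℂ}

/-- real jets at which the length element is positive -/
structure PosJ (F : Frame) (p : ℝ × ℝ) (k : T3 ℂ) : Prop where
  real : star k = k
  im : (F.G p.2 k.1).im = 0
  pos : 0 < (F.G p.2 k.1).re

namespace PosJ
variable (h : PosJ F p k)
include h

lemma rep : ∃ a b c g : ℝ, k = ((a : ℂ), (b : ℂ), (c : ℂ)) ∧ F.G p.2 k.1 = g ∧ 0 < g :=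
  ⟨k.1.re, k.2.1.re, k.2.2.re, (F.G p.2 k.1).re,
    Prod.ext (conj_eq_iff_re.1 (congrArg (·.1) h.real)).symm
      (Prod.ext (conj_eq_iff_re.1 (congrArg (·.2.1) h.real)).symm
        (conj_eq_iff_re.1 (congrArg (·.2.2) h.real)).symm),
    (conj_eq_iff_re.1 (conj_eq_iff_im.2 h.im)).symm, h.pos⟩

lemma ne : 1 + k.1 ^ 2 ≠ 0 := by
  obtain ⟨a, b, c, g, rfl, -⟩ := h.rep
  exact one_add_sq_ne a

lemma gm_pos : ∃ r : ℝ, 0 < r ∧ gm F p k = r := by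
  obtain ⟨a, b, c, g, rfl, e, hg⟩ := h.rep
  refine ⟨4 * ((2 * c / (1 + a ^ 2)) ^ 2 +
    g ^ 2 * (1 + 4 * p.1 ^ 2 * (2 * b / (1 + a ^ 2)) ^ 2)), by positivity, ?_⟩
  rw [gm, e]
  simp [d1]

lemma slit : gm F p k ∈ slitPlane := by
  obtain ⟨r, hr, e⟩ := h.gm_pos
  rw [e]
  exact ofReal_mem_slitPlane.2 hr

lemma sqrt_pos : ∃ r : ℝ, 0 < r ∧ Complex.sqrt (gm F p k) = r := by
  obtain ⟨r, hr, e⟩ := h.gm_pos
  refine ⟨√r, Real.sqrt_pos.2 hr, ?_⟩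
  rw [e, Complex.sqrt_of_nonneg (by exact_mod_cast hr.le)]
  simp

lemma fc_pos : ∃ r : ℝ, 0 < r ∧ fc F p k = r := by
  obtain ⟨r, hr, e1⟩ := h.sqrt_pos
  obtain ⟨a, b, c, g, rfl, e, hg⟩ := h.rep
  refine ⟨16 * (2 / (1 + a ^ 2)) * g / ((1 + a ^ 2) ^ 6 * r ^ 3), by positivity, ?_⟩
  rw [fc, e, e1]
  simp [d1, lam]

lemma triple_sq (h0 : 0 < p.1) : ∃ r : ℝ, 0 < r ∧
    (F.sg p.2 * -(4 * rt p.1 * d1 k.1 1 * F.G p.2 k.1)) ^ 2 = r := by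
  obtain ⟨a, b, c, g, rfl, e, hg⟩ := h.rep
  refine ⟨16 * p.1 * (2 / (1 + a ^ 2)) ^ 2 * g ^ 2, by positivity, ?_⟩
  rw [mul_pow, F.sg_sq, e, neg_sq, mul_pow, mul_pow, mul_pow, rt_sq h0.le]
  simp [d1]
  norm_num

end PosJ

end fr

lemma normal_sq {n a b : C3} (hn : n ⬝ᵥ n = 1) (ha : n ⬝ᵥ a = 0) (hb : n ⬝ᵥ b = 0) (T : C3) :
    (n ⬝ᵥ T) ^ 2 * gram a b = (a ⨯₃ b ⬝ᵥ T) ^ 2 := by
  have h : a ⨯₃ b = (a ⨯₃ b ⬝ᵥ n) • n := by
    simp only [dot3] at hn ha hb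
    ext i
    fin_cases i <;> simp only [dot3, cross0, cross1, cross2, Pi.smul_apply, smul_eq_mul,
      Fin.reduceFinMk, Fin.zero_eta, Fin.mk_one]
    · linear_combination (-(a 1 * b 2 - a 2 * b 1)) * hn + (n 1 * b 2 - n 2 * b 1) * ha -
        (n 1 * a 2 - n 2 * a 1) * hb
    · linear_combination (-(a 2 * b 0 - a 0 * b 2)) * hn + (n 2 * b 0 - n 0 * b 2) * ha -
        (n 2 * a 0 - n 0 * a 2) * hb
    · linear_combination (-(a 0 * b 1 - a 1 * b 0)) * hn + (n 0 * b 1 - n 1 * b 0) * ha -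
        (n 0 * a 1 - n 1 * a 0) * hb
  rw [gram_eq]
  generalize a ⨯₃ b ⬝ᵥ n = l at h
  rw [h]
  simp only [smul_dotProduct, dotProduct_smul, hn, smul_eq_mul]
  ring

lemma re_ne_of_sq {z : ℂ} {r s : ℝ} (hr : 0 < r) (hs : 0 < s) (h : z ^ 2 * r = s) :
    z.re ≠ 0 ∧ z.im = 0 := by
  have h1 := congrArg re h
  have h2 := congrArg im h
  simp only [sq, mul_re, mul_im, ofReal_re, ofReal_im, mul_zero, sub_zero, zero_add] at h1 h2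
  have h3 : z.re ≠ 0 := fun e => by
    rw [e] at h1
    nlinarith [mul_nonneg (mul_self_nonneg z.im) hr.le]
  refine ⟨h3, ?_⟩
  have h4 : z.im * (2 * z.re * r) = 0 := by linarith
  exact (mul_eq_zero.1 h4).resolve_right (by positivity)

/-- the jet of `c U` where `c' = - x c`, `c'' = 3 x² c` -/
def sJ (c x : ℂ) (k : J2 ℂ) : J2 ℂ :=
  ((c * k.1.1, c * (k.1.2.1 - x * k.1.1), c * k.1.2.2),
    (c * (k.2.1 - 2 * x * k.1.2.1 + 3 * x ^ 2 * k.1.1), c * (k.2.2.1 - x * k.1.2.2), c * k.2.2.2))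

lemma sJ_one (k : J2 ℂ) : sJ 1 0 k = k := by simp [sJ]

lemma pj_kap {U : ℝ × ℝ → ℂ} {p : ℝ × ℝ} (hU : ContDiffAt ℝ 2 U p) (h0 : 0 < p.1) :
    pj (fun q : ℝ × ℝ => kap q.1 * U q) p = sJ (kap p.1) (xf p.1) (pj U p) := by
  obtain ⟨e1, e2⟩ := Frame.pd_kap1 (hU.of_le (by norm_num)) h0
  obtain ⟨e3, e4, e5⟩ := Frame.pd_kap2 hU h0
  rw [pj, cj, e1, e2, e3, e4, e5]
  rfl

lemma Ej_cyl {w : ℝ} (hw : 0 < w) (k : J2 ℂ) : Ej 0 1 0 w (sJ (kap w) (xf w) k) = 4 * ef 0 w *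
    pE (xf w) (xf w) (ef 0 w) 1 (k.1.1 - 1) k.1.2.2 k.2.2.2 (2 * w * k.1.2.1) (2 * w * k.2.1)
      k.2.2.1 := by
  have hx := xf_eq hw
  have h := EE_cyl hx (kap_sq hw.le) (Af_eq (α := 0) hw (by simp)) 1 (k.1.1 - 1) k.1.2.2 k.2.2.2
    (2 * w * k.1.2.1) (2 * w * k.2.1) k.2.2.1
  have e1 : xf w * (2 * w * k.1.2.1 - k.1.1) = k.1.2.1 - xf w * k.1.1 := by
    linear_combination k.1.2.1 * hx
  have e2 : xf w * (2 * w * k.2.1 - 2 * xf w * (2 * w * k.1.2.1) + (4 * xf w - xf w) * k.1.1)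
      = k.2.1 - 2 * xf w * k.1.2.1 + 3 * xf w ^ 2 * k.1.1 := by
    linear_combination (k.2.1 - 2 * xf w * k.1.2.1) * hx
  rw [add_sub_cancel, Af_zero, e1, e2, one_mul] at h
  exact h

lemma sgn_sq (b : Bool) : (sgn b : ℂ) ^ 2 = 1 := by cases b <;> simp [sgn]

lemma abs_sgn (b : Bool) : |sgn b| = 1 := by cases b <;> simp [sgn]

lemma orient_E (o : EndOp) (b : Bool) (p : ℝ × ℝ) (k : J2 ℂ) :
    (o.orient b).E p k = sgn b * o.E p ((sgn b : ℂ) • k) := by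
  cases b <;> simp [EndOp.orient, sgn, EndOp.flip_E]

lemma good_orient {o : EndOp} {s : ℝ} (h : o.Good s) (b : Bool) : (o.orient b).Good s := by
  cases b
  · exact P218OP.good_flip h
  · exact h

lemma ext_orient {o : EndOp} {s : ℝ} (h : o.Good s) (h' : o.Ext s) (b : Bool) :
    (o.orient b).Ext s := by
  cases b
  · exact P218OP.ext_flip h h'
  · exact h'

end Vale.Agent.P218GC
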