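import Vale.Agent.P218CI.Dict
import Vale.Agent.P218OP.Phi
import Vale.Agent.P218CQ.Geo
import Vale.Agent.P218KE.Pull
import Vale.Agent.P218SQ.D7f
import Vale.Agent.P218HB.Man

/-! The geometric properties of the surfaces defined by the solutions of the core system. -/

open Set Filter Topology Complex Metric MeasureTheory
open scoped ContDiff Matrix

noncomputable section

set_option linter.unusedSectionVars false

namespace Vale.Agent.P218GC

open Vale.Agent.P218VA Vale.Agent.P218XI Vale.Agent.P218HB Vale.Agent.P218CI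
open Vale.Agent.P218CO hiding Adm
open Vale.Agent.P218MP (Per)
open Vale.Agent.P272.K.LIN (RSm Cov)
open Vale.Agent.P218GA (E3 Model cx cx_dot pd_cx)
open Vale.Agent.P218SQ (Pt Adm ofReal)
open Vale.Agent.P218KE (pull pull_reg pull_not reg_cases norm_F_Y)
open Vale.Agent.P218OP (coef Th ThU Phi_eq Tv_eq ok_coef ckAt_coef star_coef star_Th)

variable {S : Set E3} {w : E3 → ℝ} {δ C : ℝ} {ι κ M : Type} [TopologicalSpace M]
  [ChartedSpace E2 M] (m : Model S w δ C ι κ M) (ε : ι ⊕ κ → Bool) [Fintype ι] [Fintype κ]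

/-- the surface of a function on the core, functions on the ends and a tilt -/
def XW (a s : ℝ) (v : M → ℂ) (μ : ι ⊕ κ → ℝ × ℝ → ℂ) (B : ι × Fin 2 → ℂ) : M → C3 :=
  surf m ε a ((ends m).glue s v μ) B

variable {a b s : ℝ} {x : M} {j : ι ⊕ κ} {p : ℝ × ℝ} {v U : M → ℂ} {μ : ι ⊕ κ → ℝ × ℝ → ℂ}
  {B : ι × Fin 2 → ℂ}

lemma coreK_below (hx : x ∈ coreK m.φ a) (h : a < b) : x ∈ (ends m).below b :=
  fun j hj => (Real.exp_lt_exp.2 (by linarith)).trans_le (hx j hj)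

lemma coreK_reg (hx : x ∈ coreK m.φ a) : x ∈ m.reg :=
  Ends.below_reg (coreK_below m hx (lt_add_one a))

lemma Y_coreK (hp : m.w0 < p.1) : (ends m).Y j p ∈ coreK m.φ a ↔ p.1 ≤ a := by
  refine ⟨fun h => le_of_forall_gt fun b hb => (Ends.Y_below hp).1 (coreK_below m h hb),
    fun h j' hj' => ?_⟩
  obtain rfl := m.disj _ _ _ (Ends.Y_mem (𝓔 := ends m) j hp) hj'
  refine le_of_le_of_eq ?_ (congrArg norm (Ends.φ_Y (𝓔 := ends m) j hp)).symm
  rw [norm_pol]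
  exact Real.exp_le_exp.2 (by linarith)

lemma not_coreK (hr : x ∈ m.reg) (hx : x ∉ coreK m.φ a) :
    ∃ j, ∃ p : ℝ × ℝ, a < p.1 ∧ x = (ends m).Y j p := by
  rcases reg_cases m hr with h | ⟨j, p, hp, rfl⟩
  · exact absurd (fun j hj => absurd hj (h j)) hx
  · exact ⟨j, p, not_le.1 fun h => hx ((Y_coreK m hp).2 h), rfl⟩

lemma cut_coreK (hx : x ∈ coreK m.φ a) (j : ι ⊕ κ) : (ends m).cut j a x = 0 := by
  by_cases h : x ∈ (m.φ j).source
  · exact (Ends.cut_of_mem (𝓔 := ends m) h).trans (Ends.stp_eq_zero (hx j h))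
  · exact Ends.cut_of_notMem h

lemma Phi_coreK (hx : x ∈ coreK m.φ a) (u : ℂ) (B : ι × Fin 2 → ℂ) :
    Phi m ε a x u B = cx (m.F x) + u • cx (m.nu x) := by
  simp [Phi, Ends.core, cut_coreK m hx]

lemma Tv_coreK (hx : x ∈ coreK m.φ a) (u : ℂ) (B : ι × Fin 2 → ℂ) :
    Tv m ε a x u B = cx (m.nu x) := by
  simp [Tv, Ends.core, cut_coreK m hx]

lemma Phi_zero (hx : x ∈ m.reg) : Phi m ε a x 0 0 = cx (m.F x) := by
  rcases reg_cases m hx with h | ⟨j, p, hp, rfl⟩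
  · simpa using Phi_below m ε (Ends.below_of_core (𝓔 := ends m) h a) 0 0
  · rw [Phi_Y' m ε j hp, smul_zero, ← F_Y m ε j hp, zero_smul, add_zero, ← add_smul]
    simp

lemma XW_coreK (h : a < s + 3) (hx : x ∈ coreK m.φ a) :
    XW m ε a s v μ B x = cx (m.F x) + v x • cx (m.nu x) := by
  rw [XW, surf, Phi_coreK m ε hx, Ends.glue_below (coreK_below m hx h)]

lemma glue_hi (hμ : Per (μ j)) (h0 : m.w0 < p.1) (hp : s + 6 ≤ p.1) :
    (ends m).glue s v μ ((ends m).Y j p) = μ j p := by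
  rw [Ends.glue_Y hμ h0, st_one (by linarith), st_one (by linarith)]
  simp

lemma XW_Y (ha : m.w0 < a) (h : a ≤ s + 4) (hμ : Per (μ j)) (hp : s + 6 ≤ p.1) :
    XW m ε a s v μ B ((ends m).Y j p) = XE m ε j p (μ j p) B := by
  rw [XW, surf, Phi_Y m ε j ha (by linarith), glue_hi m hμ (by linarith) hp]

lemma XE_cyl (i : ι) (u : ℂ) : XE m ε (.inl i) p u B =
    rotM m (.inl i) B *ᵥ cylF.Z p.1 p.2 (m.U i p + sgn (ε (.inl i)) * u) := rfl

lemma XE_cone (k : κ) (u : ℂ) : XE m ε (.inr k) p u B =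
    (coneF (m.L k)).X p.1 p.2 (m.t k p + sgn (ε (.inr k)) * u) := by
  simp [XE, rotM, fr, tE, scl, ub]

lemma im_surf (hx : x ∈ m.reg) (hU : (U x).im = 0) (hB : star B = B) (i : Fin 3) :
    (surf m ε a U B x i).im = 0 := by
  have h := star_Th (z := (coef m ε a x, U x, B))
    (Prod.ext (star_coef hx) (Prod.ext (conj_eq_iff_im.2 hU) hB))
  rw [surf, Phi_eq hx]
  exact conj_eq_iff_im.1 (congrFun h i)

lemma im_fnC {𝒞 : Cov E2 M} {v : VC 𝒞} (h : v.im = 0) (x : M) : (fnC v x).im = 0 := by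
  rw [Cx.eq_ofR h, fnC_ofR, ofReal_im]

lemma im_glue (hx : x ∈ coreK m.φ b) (hv : (v x).im = 0) (hμ : ∀ j, Per (μ j))
    (h : ∀ j (p : ℝ × ℝ), s + 3 ≤ p.1 → p.1 ≤ b → (μ j p).im = 0) :
    ((ends m).glue s v μ x).im = 0 := by
  by_cases h1 : x ∈ (ends m).below (s + 3)
  · rwa [Ends.glue_below h1]
  · rcases reg_cases m (coreK_reg m hx) with h2 | ⟨j, p, hp, rfl⟩
    · exact absurd (Ends.below_of_core h2 _) h1
    · rw [Ends.glue_Y (hμ j) hp]
      simp [hv, h j p (not_lt.1 fun h3 => h1 ((Ends.Y_below hp).2 h3)) ((Y_coreK m hp).1 hx)]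

lemma im_closure {f : ℝ × ℝ → ℂ} (hf : ContinuousAt f p) (h1 : a < p.1) (h2 : p.1 ≤ b)
    (h : ∀ q : ℝ × ℝ, q.1 ∈ Ioo a b → (f q).im = 0) : (f p).im = 0 := by
  have h3 : p ∈ closure (Ioo a b ×ˢ (univ : Set ℝ)) := by
    rw [closure_prod_eq, closure_Ioo (h1.trans_le h2).ne, closure_univ]
    exact ⟨⟨h1.le, h2⟩, trivial⟩
  exact (isClosed_singleton.closure_subset (continuous_im.continuousAt.comp hf
    |>.continuousWithinAt.mem_closure h3 fun q hq => h q hq.1) :)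

lemma pd_fst {D A B : Type*} [NormedAddCommGroup D] [NormedSpace ℝ D] [NormedAddCommGroup A]
    [NormedSpace ℝ A] [NormedAddCommGroup B] [NormedSpace ℝ B] {f : D → A × B} {y : D}
    (h : DifferentiableAt ℝ f y) (d : D) : pd (fun y => (f y).1) d y = (pd f d y).1 :=
  pd_clm (ContinuousLinearMap.fst ℝ A B) h d

variable [T2Space M] [RSm E2 M] [CompactSpace M]

lemma elm_all {F X : M → C3} {e : OpenPartialHomeomorph M E2} (hF : Imm F x) (hX : CkAt 2 X x)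
    (he : e ∈ atlas E2 M) (hx : x ∈ e.source) {T : C3}
    (hT : pd (cX e X) u1 (e x) ⨯₃ pd (cX e X) u2 (e x) ⬝ᵥ T ≠ 0) (h : ELM F X x T = 0) (V : C3) :
    ELM F X x V = 0 := by
  have h1 := ELM_chart hF hX he hx T
  have h2 := ELM_chart hF hX he hx V
  rw [h, zero_mul, ELF, EL, eq_comm, neg_eq_zero, mul_eq_zero_iff_right hT] at h1
  rw [ELF, EL, h1, zero_mul, neg_zero] at h2
  exact (mul_eq_zero.1 h2).resolve_right (hF.lag_ne he hx)

lemma trans_zero (hO : Orient m ε a) {e : OpenPartialHomeomorph M E2} (he : e ∈ atlas E2 M)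
    (hx : x ∈ e.source) (hr : x ∈ m.reg) : pd (cX e fun y => cx (m.F y)) u1 (e x) ⨯₃
      pd (cX e fun y => cx (m.F y)) u2 (e x) ⬝ᵥ Tv m ε a x 0 0 ≠ 0 := by
  have hn : ∀ d, cx (m.nu x) ⬝ᵥ pd (cX e fun y => cx (m.F y)) d (e x) = 0 := fun d =>
    ((congrArg _ (pd_cx ((m.ckAt_F hr e he hx).differentiableAt (by simp)) d)).trans
      (cx_dot _ _)).trans (ofReal_eq_zero.2 (m.inner_nu_pd he hr hx d))
  intro h
  have h1 := normal_sq (nu_dot m hr) (hn u1) (hn u2) (Tv m ε a x 0 0)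
  rw [h, ← th_eq m ε hr, zero_pow two_ne_zero] at h1
  exact mul_ne_zero (pow_ne_zero _ (ofReal_ne_zero.2 (th_pos m ε hO hr).ne'))
    (slitPlane_ne_zero ((m.rimm.imm hr).slit e he hx)) h1

variable {τ : Type} [Fintype τ] {c : Cst} {U : (ι → ℝ) → Pt ι τ → M → ℂ} {Ub : Pt ι τ → M → ℂ}
  {B : (ι → ℝ) → Pt ι τ → ι × Fin 2 → ℂ} {Bb : Pt ι τ → ι × Fin 2 → ℂ}

/-- The direction field stays transversal. -/
theorem ev_trans (ha : m.w0 + 1 < a) (hO : Orient m ε a) (hx : x ∈ m.reg) (hU : HM c x U Ub)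
    (h0 : ∀ᶠ y in 𝓝 x, Ub 0 y = 0) (hB : HB c univ (fun W z (_ : Unit) => B W z) fun z _ => Bb z)
    (hL : Lp c univ fun W z (_ : Unit) => B W z) (hB0 : Bb 0 = 0) :
    ∀ᶠ c' in c.sm, ∀ᶠ y in 𝓝 x, ∀ W z, c'.Ok W z → ‖U W z y‖ < 1 ∧ ‖B W z‖ < 1 ∧
      (geoN m ε a (U W z) (B W z) y = 0 →
        ∀ V, ELM (fun y => cx (m.F y)) (surf m ε a (U W z) (B W z)) y V = 0) := by
  have hr := m.isOpen_reg.mem_nhds hx
  have hk := (ckAt_coef (ε := ε) ha hx).of_le two_le_inf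
  have h1 := hU.prod (HM.param (x := x) hB hL (mem_univ ()))
  have hok := ok_coef (ε := ε) (b := a) hx (u := Ub 0 x) (B := Bb 0) (by simp [h0.self_of_nhds])
    (by simp [hB0])
  have h2 : HM c x (fun W z => surf m ε a (U W z) (B W z)) _ := (h1.comp₂ hk hok.cd_Th).congr
    (.of_forall fun _ => mem_of_superset hr fun y hy W z _ => Phi_eq hy)
    (.of_forall fun _ => .of_forall fun _ _ _ => rfl)
  have h3 : HM c x (fun W z y => Tv m ε a y (U W z y) (B W z)) _ :=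
    (h1.comp₂ hk hok.cd_ThU).congr
    (.of_forall fun _ => mem_of_superset hr fun y hy W z _ => Tv_eq hy)
    (.of_forall fun _ => .of_forall fun _ _ _ => rfl)
  have he := chart_mem_atlas E2 x
  have hs := mem_chart_source E2 x
  set e := chartAt E2 x
  have h4 := (h2.prod (h3.prod h1)) e he hs
  have h5 := h4.ev_jet (P := fun q => q.2.1.2.1.1 ⨯₃ q.2.1.2.2.1 ⬝ᵥ q.2.1.1.2.1 ≠ 0 ∧
      ‖q.2.1.1.2.2.1‖ < 1 ∧ ‖q.2.1.1.2.2.2‖ < 1) (by
    refine .and (ContinuousAt.eventually_ne (by simp only [dot3, cross0, cross1, cross2]; fun_prop)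
      ?_) (.and (ContinuousAt.eventually_lt (by fun_prop) continuousAt_const ?_)
      (ContinuousAt.eventually_lt (by fun_prop) continuousAt_const ?_))
    · have e1 := cX_congr hs (X := fun y => Th (coef m ε a y, Ub 0 y, Bb 0))
        (X' := fun y => cx (m.F y)) (by
          filter_upwards [hr, h0] with y a1 a2
          rw [a2, hB0, ← Phi_eq a1, Phi_zero m ε a1])
      have e2 := fun d =>
        (pd_fst (h4.cdb.differentiableAt two_ne_zero) d).symm.trans (pd_congr e1 d)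
      simp only [cj]
      rw [e2, e2]
      simp only [cX, e.left_inv hs, h0.self_of_nhds, hB0, ← Tv_eq hx]
      exact trans_zero m ε hO he hs hx
    · simp [cj, cX, e.left_inv hs, h0.self_of_nhds]
    · simp [cj, cX, hB0])
  filter_upwards [h5, (h2.prod (h3.prod h1)).ev_ckAt] with c' a1 a2
  filter_upwards [(e.continuousAt hs).eventually a1, a2, hr, e.open_source.mem_nhds hs]
    with y b1 b2 b3 b4 W z hz
  obtain ⟨d1, d2, d3⟩ := b1.1 W z hz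
  have d4 := (b2 W z hz e he b4).differentiableAt two_ne_zero
  simp only [cj, cX, e.left_inv b4] at d1 d2 d3
  refine ⟨d2, d3, fun hN => elm_all (m.rimm.imm b3) (fun e' h h' => (b2 W z hz e' h h').fst) he b4
    ?_ (neg_eq_zero.1 hN)⟩
  have e2 : ∀ d, pd (cX e (surf m ε a (U W z) (B W z))) d (e y) = _ := pd_fst d4
  rw [e2, e2]
  exact d1

omit [CompactSpace M] in
lemma elm_deep (ha : m.w0 < a) (h : a < s + 3) (hx : x ∈ coreK m.φ a) {B : ι × Fin 2 → ℂ} :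
    ELM (fun y => cx (m.F y)) (XW m ε a s v μ B) x (cx (m.nu x)) = -geoN m ε a v B x := by
  have h1 := P218CQ.glue_ev (𝓔 := ends m) (ha.trans h) (v := v) (μ := μ) (coreK_below m hx h)
  rw [geoN, neg_neg, Tv_coreK m ε hx]
  exact ELM_congr (h1.mono fun y hy => by rw [XW, surf, surf, hy]) _

variable [MeasurableSpace M] [BorelSpace M]

lemma int_coreK (ha : m.w0 < a) {f : E3 → ℝ} (hf : ∀ y, 4 * a ≤ ‖y‖ ^ 2 → f y = 0) (v : M → ℂ) :
    ∫ x in coreK m.φ a, (f (m.F x) : ℝ) * v x ∂m.mu0 = ∫ x, (pull m f x : ℝ) * v x ∂m.mu0 := by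
  refine (setIntegral_congr_fun isClosed_coreK.measurableSet fun x hx => ?_).trans
    (setIntegral_eq_integral_of_forall_compl_eq_zero fun x hx => ?_)
  · simp only [pull_reg m f (coreK_reg m hx)]
  · by_cases hr : x ∈ m.reg
    · obtain ⟨j, p, hp, rfl⟩ := not_coreK m hr hx
      rw [pull_reg m f hr, hf _ (by rw [norm_F_Y m j (ha.trans hp)]; linarith)]
      simp
    · simp [pull_not m f hr]

/-- the geometric fields of the static construction -/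
structure GeoHub (c : Cst) (sd s : ℝ) (e : τ ⊕ ι → E3 → ℝ) (X : (ι → ℝ) → Pt ι τ → M → C3)
    (U : (ι → ℝ) → Pt ι τ → M → ℂ) (lam : (ι → ℝ) → Pt ι τ → τ ⊕ ι → ℂ) (lamb mo : Pt ι τ → τ ⊕ ι → ℂ)
    (R : (ι → ℝ) → Pt ι τ → ι → Matrix (Fin 3) (Fin 3) ℂ) (u : (ι → ℝ) → Pt ι τ → ι → ℝ × ℝ → ℂ)
    (t : (ι → ℝ) → Pt ι τ → κ → ℝ × ℝ → ℂ) : Prop where
  normal : ∀ W z, c.Ok W z → ∀ x ∈ coreK m.φ sd, X W z x = cx (m.F x) + U W z x • cx (m.nu x)
  deep : ∀ W z, c.Ok W z → ∀ x ∈ coreK m.φ sd,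
    ELM (fun y => cx (m.F y)) (X W z) x (cx (m.nu x)) = ∑ k, lam W z k * (e k (m.F x) : ℝ)
  out : ∀ W z, c.Ok W z → ∀ x ∈ coreK m.φ (s + 3), x ∉ coreK m.φ sd →
    ∀ V, ELM (fun y => cx (m.F y)) (X W z) x V = 0
  X_real : ∀ W x, c.Ok W (ofReal x) → ∀ y ∈ coreK m.φ (s + 3), ∀ a, (X W (ofReal x) y a).im = 0
  lam_hb : HB c univ lam lamb
  lam_zero : lamb 0 = 0
  lam_real : ∀ W x, c.Ok W (ofReal x) → ∀ k, (lam W (ofReal x) k).im = 0
  pin : ∀ W z, c.Ok W z → ∀ k, ∫ x in coreK m.φ sd, (e k (m.F x) : ℝ) * U W z x ∂m.mu0 = mo z k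
  cyl : ∀ W z, c.Ok W z → ∀ i (p : ℝ × ℝ), s < p.1 → p.1 < W i →
    X W z (Yp m.φ (.inl i) p) = R W z i *ᵥ cylF.Z p.1 p.2 (u W z i p)
  cone : ∀ W z, c.Ok W z → ∀ j (p : ℝ × ℝ), s < p.1 →
    X W z (Yp m.φ (.inr j) p) = (coneF (m.L j)).X p.1 p.2 (t W z j p)

variable {op : ι ⊕ κ → EndOp} {Nj : OpenPartialHomeomorph M E2 → E2 → J2 ℂ × (ι × Fin 2 → ℂ) → ℂ}
  {G : ι ⊕ κ → ℝ × ℝ → T3 ℂ → ℂ} {e : τ ⊕ ι → E3 → ℝ} {𝒞 : Cov E2 M} {ν : Type} [Fintype ν]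
  {δ' K ρ : ℝ} {bd : ι ⊕ κ → ℝ → (ν → ℂ) →L[ℂ] ℂ} {O : VC 𝒞 → ι ⊕ κ → ℝ × ℝ → ℂ}
  {mO : VC 𝒞 → ν → ℂ} {Gt : ℝ → ℂ → ℂ} {OW : (ι → ℝ) → (ι → ℂ) → VC 𝒞 → ι ⊕ κ → ℝ × ℝ → ℂ}
  {mW : (ι → ℝ) → (ι → ℂ) → VC 𝒞 → ν → ℂ} {al : (ι → ℝ) → Pt ι τ → ι → ℂ}
  {x : (ι → ℝ) → Pt ι τ → XX 𝒞 (ι × Fin 2) (τ ⊕ ι)} {xb : Pt ι τ → XX 𝒞 (ι × Fin 2) (τ ⊕ ι)}
  {mo : Pt ι τ → τ ⊕ ι → ℂ} {I : (ι → ℝ) → ι ⊕ κ → Set ℝ} {u : (ι → ℝ) → Pt ι τ → ι → ℝ × ℝ → ℂ}
  {t : (ι → ℝ) → Pt ι τ → κ → ℝ × ℝ → ℂ}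

/-- **The geometric fields.** -/
theorem geoHub (ha : m.w0 + 1 < a) (has : a ≤ s) (hO : Orient m ε a)
    (he : ∀ k y, 4 * a ≤ ‖y‖ ^ 2 → e k y = 0) (hc : (geoOp m ε a op Nj G).Good s)
    {T : Solver (geoOp m ε a op Nj G) s m.mu0 (fun k => pull m (e k))
      (fun i => pull m (e (.inl i))) δ' bd O mO} (h : P218SQ.D7.Out T Gt K ρ OW mW c al x xb mo)
    (hE : ∀ W z, c.Ok W z → ∀ j, Ioc s (s + 9) ⊆ I W j ∧ EndSol ((geoOp m ε a op Nj G).op j) s
      (I W j) ((geoOp m ε a op Nj G).jv (x W z).1 j) (OW W (al W z) (x W z).1 j))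
    (hU : ∀ y ∈ coreK m.φ (s + 9), ∃ Ub, HM c y
      (fun W z => (ends m).glue s (fnC (x W z).1) (OW W (al W z) (x W z).1)) Ub ∧
        ∀ᶠ y' in 𝓝 y, Ub 0 y' = 0)
    (hre : ∀ W y, c.Ok W (ofReal y) → ∀ j (p : ℝ × ℝ), p.1 ∈ Ioo s (s + 9) →
      (OW W (al W (ofReal y)) (x W (ofReal y)).1 j p).im = 0)
    (hu : ∀ W z, c.Ok W z → ∀ i (p : ℝ × ℝ), s + 6 < p.1 → p.1 < W i →
      m.U i p + sgn (ε (.inl i)) * OW W (al W z) (x W z).1 (.inl i) p = u W z i p)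
    (ht : ∀ W z, c.Ok W z → ∀ k (p : ℝ × ℝ), s + 6 < p.1 →
      m.t k p + sgn (ε (.inr k)) * OW W (al W z) (x W z).1 (.inr k) p = t W z k p) :
    ∀ᶠ c' in c.sm, GeoHub m c' a (s + 6) e
      (fun W z => XW m ε a s (fnC (x W z).1) (OW W (al W z) (x W z).1) (x W z).2.1)
      (fun W z => fnC (x W z).1) (fun W z => -(x W z).2.2) (fun z => -(xb z).2.2) mo
      (fun W z i => rotM m (.inl i) (x W z).2.1) u t := by
  have ha' : m.w0 < a := by linarith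
  have geo := fun W z (hz : c.Ok W z) => T.geo _ (h.small W z hz) _ (I W) (h.sys W z hz) fun j =>
    ⟨Ioo_subset_Ioc_self.trans (hE W z hz j).1, (hE W z hz j).2⟩
  let π : XX 𝒞 (ι × Fin 2) (τ ⊕ ι) →L[ℂ] ι × Fin 2 → ℂ :=
    (ContinuousLinearMap.fst ℂ _ _).comp (ContinuousLinearMap.snd ℂ _ _)
  have tr := Cst.ev_compact (c := c) (isCompact_coreK (φ := m.φ) (r := s + 9))
    (fun y hy => (hU y hy).elim fun Ub hb => ev_trans m ε ha hO (coreK_reg m hy) hb.1 hb.2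
      (h.red.hb.clm π) (h.red.lpx.clm π) (by rw [h.zero]; rfl))
    fun _ _ _ h1 h2 W z hz => h2 W z (h1.ok hz)
  have e9 : s + 6 + 3 = s + 9 := by ring
  filter_upwards [tr, c.ev_le] with c' h1 h2
  refine ⟨fun W z _ y hy => XW_coreK m ε (by linarith) hy, fun W z hz y hy => ?_,
    fun W z hz y hy hy' => ?_, fun W y hz y' hy => ?_, ?_, by rw [h.zero]; simp,
    fun W y hz k => ?_, fun W z hz k => (int_coreK m ha' (he k) _).trans
      (congrFun (h.pin W z (h2.ok hz)) k), fun W z hz i p p1 p2 => ?_, fun W z hz k p p1 => ?_⟩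
  · have h3 : geoN m ε a _ _ y = _ := (geo W z (h2.ok hz)).1 y (coreK_below m hy (by linarith))
    rw [elm_deep m ε ha' (by linarith) hy, h3, ← Finset.sum_neg_distrib]
    exact Finset.sum_congr rfl fun k _ => by simp [pull_reg m _ (coreK_reg m hy)]
  · rw [e9] at hy
    obtain ⟨b1, b2, b3⟩ := h1 y hy W z hz
    obtain ⟨j, p, hp, rfl⟩ := not_coreK m (coreK_reg m hy) hy'
    have hp' := ha'.trans hp
    have g := geo W z (h2.ok hz)
    refine b3 ?_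
    rcases lt_or_ge p.1 (s + 3) with h3 | h3
    · have h4 := (Ends.Y_below (𝓔 := ends m) (j := j) hp').2 h3
      refine (P218CQ.N_glue_below hc h4 (ckAt_fnC _ _) (by rwa [Ends.glue_below h4] at b1)
        b2).trans ((g.1 _ h4).trans (Finset.sum_eq_zero fun k _ => ?_))
      rw [pull_reg m _ (coreK_reg m hy), he k _ (by rw [norm_F_Y m j hp']; linarith)]
      simp
    · obtain ⟨a1, a2⟩ := hE W z (h2.ok hz) j
      have h4 := a1 ⟨by linarith, (Y_coreK m hp').1 hy⟩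
      exact P218CQ.N_glue_Y hc (by linarith) (ckAt_fnC _ _) a2.per (a2.cd p h4) b1 b2
        (g.2 j p h4 (by linarith))
  · rw [e9] at hy
    obtain ⟨a1, a2⟩ := h.real W y (h2.ok hz)
    have a3 := hE W _ (h2.ok hz)
    exact im_surf m ε (coreK_reg m hy) (im_glue m hy (im_fnC a1 _) (fun j => (a3 j).2.per)
      fun j p p1 p2 => im_closure ((a3 j).2.cd p ((a3 j).1 ⟨by linarith, p2⟩)).continuousAt
        (by linarith) p2 (hre W y (h2.ok hz) j)) (congrArg Prod.fst a2)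
  · exact (((h.red.hb.mono h2 subset_rfl).clm (-(ContinuousLinearMap.snd ℂ _ _).comp
      (ContinuousLinearMap.snd ℂ _ _))).pre (T := fun _ => ()) (mapsTo_univ _ _)).map
        (A := fun k => ContinuousLinearMap.proj k) (M := 1) fun k _ =>
          ContinuousLinearMap.opNorm_le_bound _ zero_le_one fun l => by
            simpa using norm_le_pi_norm l k
  · have := congrFun (congrArg Prod.snd (h.real W y (h2.ok hz)).2) k
    simpa using conj_eq_iff_im.1 this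
  · rw [← hu W z (h2.ok hz) i p p1 p2]
    exact XW_Y m ε ha' (by linarith) (hE W z (h2.ok hz) _).2.per p1.le
  · rw [← ht W z (h2.ok hz) k p p1, ← XE_cone m ε (B := (x W z).2.1)]
    exact XW_Y m ε ha' (by linarith) (hE W z (h2.ok hz) _).2.per p1.le

end Vale.Agent.P218GC
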