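import Vale.Agent.P218GC.HubG
import Vale.Agent.P218CP.HM
import Vale.Agent.P218HC.OW
import Vale.Agent.P218A1.Base
import Vale.Agent.P218ST.HubL

/-! The geometric fields for the solutions of the end problems. -/

open Set Filter Topology Complex Metric MeasureTheory
open scoped ContDiff Matrix

noncomputable section

set_option linter.unusedSectionVars false

namespace Vale.Agent.P218GC

open Vale.Agent.P218VA Vale.Agent.P218XI Vale.Agent.P218HB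
open Vale.Agent.P218CO hiding Adm
open Vale.Agent.P218MP (Per)
open Vale.Agent.P272.K.LIN (RSm Cov)
open Vale.Agent.P218GA (E3 Model)
open Vale.Agent.P218SQ (Pt Adm ofReal)
open Vale.Agent.P218KE (pull)
open Vale.Agent.P218A1 (Pack Fit lev)

variable {S : Set E3} {w : E3 → ℝ} {δ C : ℝ} {ι κ M τ : Type} [TopologicalSpace M]
  [ChartedSpace E2 M] {m : Model S w δ C ι κ M} {ε : ι ⊕ κ → Bool} [Fintype ι] [Fintype κ]
  [Fintype τ] [T2Space M] [RSm E2 M] [CompactSpace M] [MeasurableSpace M] [BorelSpace M]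
  {c : Cst} {𝒞 : Cov E2 M} {a s K ρ δ' : ℝ}

/-- the glued functions form a holomorphic family -/
theorem hm_glue (hs : m.w0 < s + 3) {v : (ι → ℝ) → Pt ι τ → VC 𝒞} {vb : Pt ι τ → VC 𝒞}
    (hv : P218CP.HV c v vb) {μ : (ι → ℝ) → Pt ι τ → ι ⊕ κ → ℝ × ℝ → ℂ}
    (per : ∀ W z, c.Ok W z → ∀ j, Per (μ W z j)) {x : M} (hx : x ∈ m.reg)
    (hμ : ∀ j (p : ℝ × ℝ), s + 3 ≤ p.1 → x = (ends m).Y j p → ∃ μb,
      HG c (1, 0) (0, 1) p (fun W z => μ W z j) μb ∧ ∀ᶠ q in 𝓝 p, μb 0 q = 0) :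
    ∃ Ub, HM c x (fun W z => (ends m).glue s (fnC (v W z)) (μ W z)) Ub ∧
      ∀ᶠ y in 𝓝 x, Ub 0 y = 0 := by
  rcases P218OP.reg_cases (𝓔 := ends m) hx (s + 3) with h | ⟨j, p, hp, h, rfl⟩
  · exact ⟨_, (P218CP.hm_fnC hv.hb hv.lp x).congr (.of_forall fun _ => mem_of_superset
      ((Ends.isOpen_below (𝓔 := ends m) hs).mem_nhds h) fun y hy _ _ _ => Ends.glue_below hy)
      (.of_forall fun _ => .of_forall fun _ _ _ => rfl), .of_forall fun y => by simp [hv.zero]⟩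
  · obtain ⟨μb, h1, h2⟩ := hμ j p h rfl
    have h4 := (P218CP.hm_fnC hv.hb hv.lp _).pull (d1 := ((1, 0) : ℝ × ℝ)) (d2 := (0, 1)) (m.mem j)
      (m.pol_mem j hp) contDiff_pol.contDiffAt
    have h5 : ContDiffAt ℝ 2 (fun q : ℝ × ℝ =>
        ((((1 - st (s + 5) q.1 : ℝ) : ℂ), ((st (s + 3) q.1 : ℝ) : ℂ)) : ℂ × ℂ)) p :=
      (ofRealCLM.contDiff.comp ((contDiff_st2' _).comp contDiff_fst)).contDiffAt.prodMk
        (ofRealCLM.contDiff.comp ((contDiff_st2 _).comp contDiff_fst)).contDiffAt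
    have h6 := ((h4.prod h1).comp₂ h5
      (Θ := fun x : (ℂ × ℂ) × ℂ × ℂ => x.1.1 * x.2.1 + x.1.2 * x.2.2) (by fun_prop)).congr'
      (g₁ := fun W z q => (ends m).glue s (fnC (v W z)) (μ W z) (Yp m.φ j q))
      ((Ends.ev_w0 (𝓔 := ends m) hp).mono fun q hq W z hz => Ends.glue_Y (per W z hz j) hq)
    obtain ⟨gb, a1, a2, -⟩ := P218ST.hm_of_polar (g0 := fun _ => 0) hp h6
      (h2.mono fun q hq => by simp [hq, hv.zero])
    exact ⟨gb, a1, a2⟩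

variable {op : ι ⊕ κ → EndOp} {Nj : OpenPartialHomeomorph M E2 → E2 → J2 ℂ × (ι × Fin 2 → ℂ) → ℂ}
  {G : ι ⊕ κ → ℝ × ℝ → T3 ℂ → ℂ} {e : τ ⊕ ι → E3 → ℝ} {ν : Type} [Fintype ν]
  {bd : ι ⊕ κ → ℝ → (ν → ℂ) →L[ℂ] ℂ} {O : VC 𝒞 → ι ⊕ κ → ℝ × ℝ → ℂ} {mO : VC 𝒞 → ν → ℂ}
  {mW : (ι → ℝ) → (ι → ℂ) → VC 𝒞 → ν → ℂ} {al : (ι → ℝ) → Pt ι τ → ι → ℂ}
  {x : (ι → ℝ) → Pt ι τ → XX 𝒞 (ι × Fin 2) (τ ⊕ ι)} {xb : Pt ι τ → XX 𝒞 (ι × Fin 2) (τ ⊕ ι)}
  {mo : Pt ι τ → τ ⊕ ι → ℂ}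

/-- **The geometric fields.** -/
theorem geoHub_pack (P : Pack m ε 𝒞 s K) (ha : m.w0 + 1 < a) (has : a ≤ s) (hO : Orient m ε a)
    (he : ∀ k y, 4 * a ≤ ‖y‖ ^ 2 → e k y = 0) (hc : (geoOp m ε a op Nj G).Good s)
    (hf : Fit m ε (geoOp m ε a op Nj G))
    {T : Solver (geoOp m ε a op Nj G) s m.mu0 (fun k => pull m (e k))
      (fun i => pull m (e (.inl i))) δ' bd O mO}
    (h : P218SQ.D7.Out T P218TP.GG K ρ P.OW mW c al x xb mo) (hρ : 2 * ρ ≤ P.r)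
    (hw : s ^ 2 ≤ c.w1) : ∀ᶠ c' in c.sm, GeoHub m c' a (s + 6) e
      (fun W z => XW m ε a s (fnC (x W z).1) (P.OW W (al W z) (x W z).1) (x W z).2.1)
      (fun W z => fnC (x W z).1) (fun W z => -(x W z).2.2) (fun z => -(xb z).2.2) mo
      (fun W z i => rotM m (.inl i) (x W z).2.1)
      (fun W z i => U0 (al W z i) (P.J i (W i) (al W z i, (x W z).1)))
      fun W z k => P218CN.tOf m k (sgn (ε (.inr k))) (P.Jc k (x W z).1) := by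
  have hb := P.big
  have hρ0 : ρ ≤ P.r := by linarith [h.red.r_le, c.r_pos]
  have hW : ∀ {W} {z : Pt ι τ}, c.Ok W z → ∀ i, s ^ 2 ≤ W i := fun hz i => hw.trans (hz.1 i).1
  have hl : ∀ {W} {z : Pt ι τ}, c.Ok W z → ∀ j : ι ⊕ κ, Ioc s (s + 9) ⊆ lev s W j :=
    fun hz j y hy => by
    rcases j with i | k
    · exact ⟨hy.1, by nlinarith [hW hz i, hy.2]⟩
    · exact hy.1
  have hv : ∀ {W z}, c.Ok W z → (x W z).1 ∈ ball (0 : VC 𝒞) P.r := fun hz => mem_ball_zero_iff.2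
    ((norm_fst_le _).trans_lt (mem_ball_zero_iff.1 (h.red.mem' hz hρ0).2))
  have hr := fun W y hz => (h.real W y hz).1
  exact geoHub m ε ha has hO he hc h (I := lev s)
    (fun W z hz j => ⟨hl hz j, P.endSol hf (hW hz) (h.red.mem' hz hρ0).1 (hv hz) j⟩)
    (fun y hy => hm_glue (by linarith) (P218CP.HV.clm ⟨h.red.hb, h.red.lpx, h.zero⟩
      (ContinuousLinearMap.fst ℂ _ _)) (fun _ _ _ => P218HC.per_OW P _ _ _) (coreK_reg m hy)
      fun j p hp _ => P218HC.hg_OW P h.red hρ hw h.zero hr j (by linarith))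
    (fun W y hz j p hp => P218HC.im_OW P (hW hz) (h.red.mem' hz hρ0).1 (h.red.real W y hz) (hv hz)
      (hr W y hz) j (hl hz j (Ioo_subset_Ioc_self hp)))
    (fun W z hz i p p1 p2 => P.ub_add (hW hz i) ((h.red.mem' hz hρ0).1 i) _ ⟨by linarith, p2.le⟩)
    fun _ _ _ _ _ _ => rfl

end Vale.Agent.P218GC
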